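import Crest.Agent.N325.Sg.Defs
import Crest.Agent.N325.Lt.Ok
import Crest.Agent.N325.Ds.Fin_Mg
import Crest.Agent.N325.Lst.ListImpl
import Crest.Agent.N325.Lt.Defs
import Crest.Agent.N325.Pc.Defs
import Crest.Agent.N325.Pc.Hard
import Crest.Agent.N325.Sg.Upd
import Crest.Agent.N325.Ds.Defs
import Crest.Agent.N325.Sg.Mark
import Crest.Agent.N325.Pc.Root
import Crest.Agent.N325.Sg.Tab
import Crest.Agent.N325.Sg.Par
import Crest.Agent.N325.Ag.FinD
import Crest.Agent.N325.P2.Drop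
import Crest.Agent.N325.Mt.Rebase
import Crest.Agent.N325.P2.Dual
import Crest.Agent.N325.Lb.Bar
import Crest.Agent.N325.P2.DropE
import Crest.Agent.N325.P2.DropP
import Crest.Agent.N325.P2.Rp

-- ▼ part N325/Sg/Fx
section

/-!
# Row 325 (helper63): the static data of a stage
-/

set_option autoImplicit false

namespace Crest.Agent.N325.Sg

open Tw Lt

variable {g : Gl} {P : Pm} {c : Bd} {G0 : Gr} {X : Fx} {T : LF}

theorem G_le (hG : G0.Ok c) (h : T.Ok G0 P c.m c.nb) :
    ∀ x ∈ T.ord, (T.G.get x).natAbs ≤ P.Hb * c.gb := fun x hx =>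
  (h.G_le hG x hx).trans (Nat.mul_le_mul_right _ (h.Hb x hx))

theorem obj_le (hG : G0.Ok c) (h : T.Ok G0 P c.m c.nb) {x : Ob} (hx : x ∈ T.obj) :
    ((G0.ed x.1).g - (T.G.get x.2.2.1 - T.G.get x.2.1)).natAbs ≤ (2 * P.Hb + 1) * c.gb ∧
      1 ≤ T.lam G0.ed x ∧ (G0.ed x.1).l ≤ T.lam G0.ed x ∧ T.lam G0.ed x ≤ c.lb + 2 * P.Hb := by
  obtain ⟨a1, a2, a3, -, -, -, -, -, a4, a5, -⟩ := h.obj x hx
  obtain ⟨-, -, -, b1, b2, b3⟩ := hG.2.2 _ a1
  have c1 := G_le hG h _ a2
  have c2 := G_le hG h _ a3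
  have d1 := h.Hb _ a2
  have d2 := h.Hb _ a3
  unfold LF.lam
  rw [add_mul, mul_assoc, one_mul]
  omega

theorem get_push' (a : Arr (List ℕ)) (v e u : ℕ) :
    (Ds.push a v e).get u = if v = u then e :: a.get u else a.get u := by
  unfold Ds.push; rw [Arr.get_set]; split_ifs <;> simp_all

/-- the tables after the objects `D` -/
structure FI (ed : ℕ → Ed) (T : LF) (D : List Ob) (X : Fx) : Prop where
  eT : X.T = T
  nO : X.nO = D.length
  ob : ∀ o < X.nO, D[o]? = some (X.ob.get o)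
  oe : ∀ e, (X.oe.get e).Nodup ∧ (X.oe.get e).length = D.countP (fun o => o.1 = e) ∧
    ∀ o, o ∈ X.oe.get e ↔ o < X.nO ∧ (X.ob.get o).1 = e
  en : ∀ y, (X.en.get y).length =
      D.countP (fun o => o.2.1 = y) + D.countP (fun o => o.2.2.1 = y) ∧
    ∀ o, o ∈ X.en.get y ↔ o / 2 < X.nO ∧ nd X.ob.get o = y
  gt : ∀ o < X.nO, X.gt.get o = (ed (X.ob.get o).1).g -
    (T.G.get (X.ob.get o).2.2.1 - T.G.get (X.ob.get o).2.1)
  la : ∀ o < X.nO, X.la.get o = T.lam ed (X.ob.get o)
  cls : ∀ o, X.cls.get o = if o / 2 < X.nO then (X.la.get (o / 2)).size else 0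

theorem FI.step {ed : ℕ → Ed} {D : List Ob} (h : FI ed T D X) (x : Ob) :
    FI ed T (D ++ [x]) ⟨X.T, X.nO + 1, X.ob.set X.nO x, Ds.push X.oe x.1 X.nO,
      Ds.push (Ds.push X.en x.2.1 (2 * X.nO)) x.2.2.1 (2 * X.nO + 1),
      X.gt.set X.nO ((ed x.1).g - (T.G.get x.2.2.1 - T.G.get x.2.1)), X.la.set X.nO (T.lam ed x),
      (X.cls.set (2 * X.nO) (T.lam ed x).size).set (2 * X.nO + 1) (T.lam ed x).size⟩ := by
  have n := h.nO
  have ho : ∀ o < X.nO, (X.ob.set X.nO x).get o = X.ob.get o := fun o k => Arr.get_set_ne _ k.ne _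
  refine ⟨h.eT, by simp [n], fun o k => ?_, fun e => ?_, fun y => ?_, fun o k => ?_, fun o k => ?_,
    fun o => ?_⟩
  · dsimp only at k ⊢
    by_cases q : o < X.nO
    · rw [ho o q, List.getElem?_append_left (n ▸ q), h.ob o q]
    · obtain rfl : o = X.nO := by omega
      rw [Arr.get_set_self, n, List.getElem?_concat_length]
  · obtain ⟨a, b, d⟩ := h.oe e
    simp only [get_push', List.countP_append, List.countP_singleton, decide_eq_true_eq]
    refine ⟨?_, by split_ifs <;> simp [b], fun o => ?_⟩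
    · split_ifs
      · exact List.nodup_cons.2 ⟨fun k => lt_irrefl _ ((d _).1 k).1, a⟩
      · exact a
    · by_cases q : o < X.nO
      · rw [ho o q]
        split_ifs <;> simp [d, q, q.ne, q.le]
      · by_cases q' : o = X.nO
        · subst q'
          split_ifs with z <;> simp [d, z]
        · have : ¬o < X.nO + 1 := by omega
          split_ifs <;> simp [d, q, q', this]
  · obtain ⟨a, b⟩ := h.en y
    simp only [get_push', List.countP_append, List.countP_singleton, decide_eq_true_eq]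
    refine ⟨by split_ifs <;> simp [a] <;> omega, fun o => ?_⟩
    have e : o ∈ (if x.2.2.1 = y then (2 * X.nO + 1) ::
        (if x.2.1 = y then 2 * X.nO :: X.en.get y else X.en.get y)
        else if x.2.1 = y then 2 * X.nO :: X.en.get y else X.en.get y) ↔
        (o = 2 * X.nO + 1 ∧ x.2.2.1 = y) ∨ (o = 2 * X.nO ∧ x.2.1 = y) ∨ o ∈ X.en.get y := by
      split_ifs with p q q <;> simp [p, q]
    rw [e, b]
    unfold nd
    by_cases q : o / 2 < X.nO
    · rw [ho _ q]
      exact ⟨fun k => ⟨by omega, ((k.resolve_left fun z => by omega).resolve_left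
        fun z => by omega).2⟩, fun k => Or.inr (Or.inr ⟨q, k.2⟩)⟩
    · by_cases q' : o / 2 = X.nO
      · rw [q', Arr.get_set_self]
        split_ifs with z
        · exact ⟨fun k => ⟨by omega, ((k.resolve_left fun z => by omega).resolve_right
            fun z => by omega).2⟩, fun k => Or.inr (Or.inl ⟨by omega, k.2⟩)⟩
        · exact ⟨fun k => ⟨by omega, (k.resolve_right fun z => by omega).2⟩,
            fun k => Or.inl ⟨by omega, k.2⟩⟩
      · exact ⟨fun k => by omega, fun k => by omega⟩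
  · dsimp only at k ⊢
    by_cases q : o < X.nO
    · rw [ho o q, Arr.get_set_ne _ q.ne, h.gt o q]
    · obtain rfl : o = X.nO := by omega
      rw [Arr.get_set_self, Arr.get_set_self]
  · dsimp only at k ⊢
    by_cases q : o < X.nO
    · rw [ho o q, Arr.get_set_ne _ q.ne, h.la o q]
    · obtain rfl : o = X.nO := by omega
      rw [Arr.get_set_self, Arr.get_set_self]
  · simp only [Arr.get_set, h.cls]
    split_ifs <;> first | rfl | omega

theorem sp_fxR {ed : Arr Ed} (hG : G0.Ok c) (h : T.Ok G0 P c.m c.nb)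
    (he : ∀ e ∈ G0.E, ed.get e = G0.ed e)
    (h1 : 2 * (c.m * P.S ^ 2) ≤ g.X) (h2 : (2 * P.Hb + 1) * c.gb ≤ g.X)
    (h3 : c.lb + 2 * P.Hb ≤ g.X) :
    Sp g (fxR ed T) fun X t => FxOk P c G0 X ∧ X.T = T ∧ t ≤ T.obj.length + 1 := by
  refine (sp_foldL' (fun l X => ∃ D, T.obj = D ++ l ∧ FI G0.ed T D X) (fun _ => 0) ?_
    ⟨[], rfl, rfl, rfl, fun _ k => absurd k (Nat.not_lt_zero _), fun _ => by simp, fun _ => by simp,
      fun _ k => absurd k (Nat.not_lt_zero _), fun _ k => absurd k (Nat.not_lt_zero _),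
      fun _ => by simp⟩).mono ?_
  · rintro x l X ⟨D, e, I⟩
    have hx : x ∈ T.obj := by rw [e]; simp
    obtain ⟨a1, -, -, a2⟩ := obj_le hG h hx
    have a3 := h.olen
    have a4 := I.nO
    have a5 := congrArg List.length e
    rw [List.length_append] at a5
    have a6 := I.step x
    simp only [obj1, sp_bind, sp_nat, sp_int, sp_pure, he _ (h.obj x hx).1, I.eT] at a6 ⊢
    exact ⟨by omega, a1.trans h2, a2.trans h3, ⟨D ++ [x], by simp [e], a6⟩, le_rfl⟩
  · rintro X t ⟨⟨D, e, I⟩, ht⟩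
    rw [List.append_nil] at e
    subst e
    refine ⟨⟨hG, I.eT ▸ h, by rw [I.eT, I.nO], fun o k => ?_, fun x k => ?_, fun e => ?_,
      fun y => ?_, I.eT ▸ I.gt, I.eT ▸ I.la, I.cls⟩, I.eT, by simpa using ht⟩
    · rw [I.eT]; exact List.mem_of_getElem? (I.ob o k)
    · rw [I.eT] at k
      obtain ⟨o, q⟩ := List.getElem?_of_mem k
      have z : o < X.nO := I.nO ▸ (List.getElem?_eq_some_iff.1 q).1
      exact ⟨o, z, Option.some.inj ((I.ob o z).symm.trans q)⟩
    · exact ⟨(I.oe e).1, (I.oe e).2.1 ▸ h.oe e, (I.oe e).2.2⟩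
    · exact ⟨(I.en y).1 ▸ h.oa y, (I.en y).2⟩

theorem FxOk.gt_le (h : FxOk P c G0 X) : ∀ o < X.nO, (X.gt.get o).natAbs ≤ (2 * P.Hb + 1) * c.gb ∧
    1 ≤ X.la.get o ∧ X.la.get o ≤ c.lb + 2 * P.Hb := fun o k => by
  obtain ⟨a, b, -, d⟩ := obj_le h.g0 h.ok (h.ob o k)
  rw [h.gt o k, h.la o k]
  exact ⟨a, b, d⟩

theorem FxOk.l_le (h : FxOk P c G0 X) {o : ℕ} (k : o < X.nO) :
    (G0.ed (X.ob.get o).1).l ≤ X.la.get o :=
  h.la o k ▸ (obj_le h.g0 h.ok (h.ob o k)).2.2.1

theorem FxOk.nO_le (h : FxOk P c G0 X) : X.nO ≤ c.m * P.S ^ 2 := h.nO ▸ h.ok.olen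

theorem FxOk.cls_rv (h : FxOk P c G0 X) (o : ℕ) : X.cls.get (Bf.rv o) = X.cls.get o := by
  rw [h.cls, h.cls, Bf.rv_div]

theorem FxOk.cls_lt (h : FxOk P c G0 X) (o : ℕ) : X.cls.get o < (c.lb + 2 * P.Hb).size + 1 := by
  rw [h.cls, Nat.lt_succ_iff]
  split_ifs with k
  · exact Nat.size_le_size (h.gt_le _ k).2.2
  · exact Nat.zero_le _

/-- lengths agree up to the factor two inside a class -/
theorem FxOk.la_le (h : FxOk P c G0 X) {e f : ℕ} (he : e < X.nO) (hf : f < X.nO)
    (k : X.cls.get (2 * f) = X.cls.get (2 * e)) : X.la.get f ≤ 2 * X.la.get e := by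
  rw [h.cls, h.cls, Nat.mul_div_cancel_left _ two_pos, Nat.mul_div_cancel_left _ two_pos,
    if_pos he, if_pos hf] at k
  have a := Nat.lt_size_self (X.la.get f)
  have b := (h.gt_le e he).2.1
  obtain ⟨j, hj⟩ : ∃ j, (X.la.get e).size = j + 1 :=
    Nat.exists_eq_succ_of_ne_zero (by rw [ne_eq, Nat.size_eq_zero]; omega)
  have d : 2 ^ j ≤ X.la.get e := Nat.lt_size.1 (by omega)
  rw [k, hj, pow_succ] at a
  omega

end Crest.Agent.N325.Sg
end

-- ▼ part N325/Ds/Build
section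

/-!
# Row 325 (helper73): the batch spanner — construction
-/

set_option autoImplicit false

namespace Crest.Agent.N325.Ds

open Bf

variable {g : Gl} {bx : BI → R BO} {cls : ℕ → ℕ} {k : Cs} {Nx : ℕ → ℕ → Prop} {Gam : ℕ → ℕ}
  {gt : ℕ → ℤ} {la : ℕ → ℕ} {th : ℕ}

theorem sp_sortI (vx : Arr ℕ) {I : List ℕ} (hX : ∀ e ∈ I, 2 * e ≤ g.X) :
    Sp g (foldL (sortI vx) I ([], [])) fun r t => ∃ A B : List ℕ, (A ++ B).Perm I ∧
      (∀ e ∈ A, vx.get (2 * e) ≠ vx.get (2 * e + 1)) ∧
      (∀ e ∈ B, vx.get (2 * e) = vx.get (2 * e + 1)) ∧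
      r.1 = A.map (fun e => (2 * e, vx.get (2 * e), vx.get (2 * e + 1), [], [])) ∧
      r.2 = B.map (fun e => (2 * e, [])) ∧ t ≤ I.length + 1 := by
  refine (sp_foldL' (fun l r => (∀ e ∈ l, e ∈ I) ∧ ∃ A B : List ℕ, (A ++ B ++ l).Perm I ∧
      (∀ e ∈ A, vx.get (2 * e) ≠ vx.get (2 * e + 1)) ∧
      (∀ e ∈ B, vx.get (2 * e) = vx.get (2 * e + 1)) ∧
      r.1 = A.map (fun e => (2 * e, vx.get (2 * e), vx.get (2 * e + 1), [], [])) ∧
      r.2 = B.map (fun e => (2 * e, []))) (fun _ => 0) ?_ (l := I) (s := ([], []))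
      ⟨fun _ h => h, [], [], by simp, by simp, by simp, rfl, rfl⟩).mono ?_
  · rintro e l r ⟨h0, A, B, h1, h2, h3, h4, h5⟩
    simp only [sortI, sp_bind, sp_nat, sp_pure]
    refine ⟨hX e (h0 e List.mem_cons_self), ⟨fun x hx => h0 x (List.mem_cons_of_mem _ hx), ?_⟩,
      le_rfl⟩
    split_ifs with c
    · refine ⟨A, e :: B, List.Perm.trans ?_ h1, h2, List.forall_mem_cons.2 ⟨c, h3⟩, h4,
        by rw [h5]; rfl⟩
      rw [List.append_assoc, List.append_assoc]
      exact (List.perm_middle (l₁ := B)).symm.append_left A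
    · refine ⟨e :: A, B, List.Perm.trans ?_ h1, List.forall_mem_cons.2 ⟨c, h2⟩, h3,
        by rw [h4]; rfl, h5⟩
      exact (List.perm_middle (l₁ := A ++ B)).symm
  · rintro r t ⟨⟨-, A, B, h1, h⟩, ht⟩
    exact ⟨A, B, by simpa using h1, h.1, h.2.1, h.2.2.1, h.2.2.2, by simpa using ht⟩

/-- double counting of the tails -/
theorem len_le_mul {f : ℕ → ℕ → ℕ} {A W : List ℕ} {D : ℕ} (h1 : ∀ e ∈ A, ∃ v ∈ W, 0 < f v e)
    (h2 : ∀ v, (A.map (f v)).sum ≤ D) : A.length ≤ W.length * D := by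
  have e1 : A.length ≤ (A.map fun e => (W.map fun v => f v e).sum).sum := by
    rw [← List.length_map (f := fun e => (W.map fun v => f v e).sum), ← mul_one (List.length _),
      ← smul_eq_mul]
    refine List.card_nsmul_le_sum _ _ fun x hx => ?_
    obtain ⟨e, he, rfl⟩ := List.mem_map.1 hx
    obtain ⟨v, hv, c⟩ := h1 e he
    exact c.trans_le (List.single_le_sum (fun _ _ => Nat.zero_le _) _ (List.mem_map_of_mem hv))
  have e2 : (A.map fun e => (W.map fun v => f v e).sum).sum = (W.map fun v => (A.map (f v)).sum).sum := by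
    clear e1 h1 h2
    induction W with
    | nil => simp
    | cons v W ih => simp only [List.map_cons, List.sum_cons, List.sum_map_add, ih]
  refine e1.trans (e2.trans_le ?_)
  rw [← List.length_map (f := fun v => (A.map (f v)).sum), ← smul_eq_mul]
  refine List.sum_le_card_nsmul _ _ fun x hx => ?_
  obtain ⟨v, -, rfl⟩ := List.mem_map.1 hx
  exact h2 v

theorem chain_mono {p : ℕ × ℕ} {pr : List (ℕ × ℕ)}
    (h : (p :: pr).IsChain fun y x => Nx y.1 x.1 ∧ y.1 ≤ x.1 ∧ y.2 + y.2 * Gam x.1 ≤ x.2) :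
    ∀ q ∈ p :: pr, p.1 ≤ q.1 ∧ p.2 ≤ q.2 := by
  induction pr generalizing p with
  | nil => simp
  | cons a l ih =>
    obtain ⟨h1, h2⟩ := List.isChain_cons_cons.1 h
    refine List.forall_mem_cons.2 ⟨⟨le_rfl, le_rfl⟩, fun q hq => ?_⟩
    have := ih h2 q hq
    omega

theorem val_zero {b : ℕ} {l : List Lv} (h : ∀ y ∈ l, y.cnt = 0) : val b l = 0 := by
  induction l with
  | nil => rfl
  | cons y l ih =>
    rw [val, h y List.mem_cons_self, ih fun z hz => h z (List.mem_cons_of_mem _ hz)]; rfl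

/-- **construction** -/
theorem sp_build (hb : BoxSpec g bx cls k Nx Gam) (hcls : ∀ o, cls (rv o) = cls o)
    {vx : Arr ℕ} {I V : List ℕ} {P D0 D1 : ℕ} {pr : List (ℕ × ℕ)}
    (hI : I.Nodup) (hX : ∀ e ∈ I, 2 * e ≤ g.X) (hV : ∀ v ∈ V, v < k.nV)
    (hIV : ∀ e ∈ I, vx.get (2 * e) ≠ vx.get (2 * e + 1) →
      vx.get (2 * e) ∈ V ∧ vx.get (2 * e + 1) ∈ V)
    (hD : ∀ v, (I.map fun e => cnt vx.get v [2 * e]).sum ≤ D0) (hN : Nx 0 P)
    (hD1 : D0 + D0 * Gam P ≤ D1)
    (hpr : ((P, D1) :: pr).IsChain fun y x => Nx y.1 x.1 ∧ y.1 ≤ x.1 ∧ y.2 + y.2 * Gam x.1 ≤ x.2)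
    (hpr' : ∀ p ∈ (P, D1) :: pr, p.1 ≤ k.LM ∧ p.2 ≤ k.DD) :
    Sp g (build bx vx I V P D0 D1 pr) fun r t =>
      Inv k Nx Gam cls gt la th pr.length vx.get r.1 0 ∧ (∀ e, r.1.al.get e = true ↔ e ∈ I) ∧
      r.2.Nodup ∧ (∀ e, r.1.pub e ↔ e ∈ r.2) ∧ r.2.length ≤ k.cH * (V.length + 1) ∧
      k.rc r.1 = 0 ∧
      t + k.Phi r.1 ≤ (k.Cb + 2 * k.LM + 20) * (I.length + 1) + (k.cH + 1) * (V.length + 1) +
        pr.length := by
  refine (sp_numS V).bind fun a t1 ⟨_, a2, a3, a4, a5, a6, a7, T1⟩ => ?_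
  refine (sp_sortI vx hX).bind fun J t2 ⟨A, B, p, hA, hB, e1, e2, T2⟩ => ?_
  have nd := p.nodup_iff.2 hI
  have mA : ∀ e ∈ A, e ∈ I := fun e h => p.mem_iff.1 (List.mem_append_left _ h)
  have lAB : A.length + B.length = I.length := by simpa using p.length_eq
  have sAB : ∀ v, (A.map fun e => cnt vx.get v [2 * e]).sum +
      (B.map fun e => cnt vx.get v [2 * e]).sum ≤ D0 := fun v => by
    rw [← List.sum_append, ← List.map_append, (p.map _).sum_eq]; exact hD v
  have d2 : ∀ e : ℕ, 2 * e / 2 = e := fun e => by omega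
  have eB : (J.2.map fun x => x.1 / 2) = B := by
    rw [e2, List.map_map]; simp [Function.comp_def]
  have eA : J.1.map Prod.fst = A.map (2 * ·) := by rw [e1, List.map_map]; rfl
  have hP := hpr' _ List.mem_cons_self
  refine (sp_setW vx (Arr.cst []) (Arr.cst []) (W := J.2) (P := 0)
    (eB ▸ (List.nodup_append.1 nd).2.1) fun x hx => ?_).bind fun c t3 ⟨c1, _, c3, _, c5, T3⟩ => ?_
  · rw [e2] at hx
    obtain ⟨e, -, rfl⟩ := List.mem_map.1 hx
    exact le_rfl
  have nV : a.2.1 ≤ k.nV := by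
    rw [← a6, ← List.toFinset_card_of_nodup a4, ← Finset.card_range k.nV]
    exact Finset.card_le_card fun v hv =>
      Finset.mem_range.2 (hV v ((a5 v).1 (List.mem_toFinset.1 hv)))
  refine (sp_fin hb hcls (vx := vx) (nu := a.1) (al := fun e => decide (e ∈ I)) (n := a.2.1 + 1)
    (P := P) (D := D0) (lam := 0) (J := J.1) (S := (· ∈ V)) (sn := ⟨c.1, c.2, Arr.cst false⟩)
    (Nat.succ_pos _) (Nat.succ_le_succ nV) hP.1 (by have := hP.2; omega) hN
    (fun v _ => Nat.lt_succ_of_le (a2 v)) (fun u v hu hv => a3 u hu v hv) (fun i hi => ?_)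
    (fun i hi => ?_) ?_ (fun v => ?_) ?_).bind
    fun r t4 ⟨r1, r2, r3, r4, r5, _, r7, r8, r9, r10, T4⟩ => ?_
  · rw [e1] at hi
    obtain ⟨e, he, rfl⟩ := List.mem_map.1 hi
    have := hIV e (mA e he) (hA e he)
    exact ⟨this.1, this.2, rfl, by rw [rv_two]; rfl, le_rfl, fun _ h => nomatch h⟩
  · rw [e1] at hi
    obtain ⟨e, he, rfl⟩ := List.mem_map.1 hi
    exact ⟨by simp, by simpa using mA e he, rfl⟩
  · rw [eA]
    exact (List.nodup_append.1 nd).1.map fun x y h => by simpa using h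
  · rw [e1, List.map_map]
    exact (Nat.le_add_right _ _).trans (sAB v)
  · rw [e1, List.length_map]
    refine (len_le_mul (f := fun v e => cnt vx.get v [2 * e]) (W := a.2.2) (fun e he => ?_)
      fun v => (Nat.le_add_right _ _).trans (sAB v)).trans ?_
    · exact ⟨_, (a5 _).2 (hIV e (mA e he) (hA e he)).1, cnt_pos List.mem_cons_self (.inl rfl)⟩
    · rw [a6]; exact Nat.mul_le_mul_right _ (Nat.le_succ _)
  refine (sp_setAllP _ I _).bind fun al t5 ⟨hal, T5⟩ => (sp_foldP _ pr _).bind fun ls t6 ⟨e6, T6⟩ => ?_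
  have eal : al.get = fun e => decide (e ∈ I) := funext fun e => by
    rw [hal]; by_cases h : e ∈ I <;> simp [h]
  have mal : ∀ e, al.get e = true ↔ e ∈ I := fun e => by simp [eal]
  have els : ls = (((P, D1) :: pr).map fun p => (⟨0, p.1, p.2, r.1, [], []⟩ : Lv)).reverse := by
    rw [e6, foldl_cons_map (fun p : ℕ × ℕ => (⟨0, p.1, p.2, r.1, [], []⟩ : Lv))]; simp
  have mls : ∀ y ∈ ls, ∃ p ∈ (P, D1) :: pr, y = ⟨0, p.1, p.2, r.1, [], []⟩ := fun y hy => by
    rw [els, List.mem_reverse] at hy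
    obtain ⟨p, hp, rfl⟩ := List.mem_map.1 hy
    exact ⟨p, hp, rfl⟩
  have lls : ls.length = pr.length + 1 := by simp [els]
  obtain ⟨q, -, ecur⟩ : ∃ p ∈ (P, D1) :: pr, ls.headD lv0 = ⟨0, p.1, p.2, r.1, [], []⟩ := by
    cases ls with
    | nil => simp at lls
    | cons y l => exact mls y List.mem_cons_self
  have mr : ∀ e, e ∈ r.2.2 ↔ e ∈ A := fun e => by
    rw [r5, eA]; simp
  have sn : SnOk cls vx.get al.get r.1 P D1 [] := by
    refine ⟨vx.get, ⟨fun _ _ h => h, fun _ h => absurd rfl h⟩, fun v => ?_, fun e he _ => ?_⟩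
    · refine (r10 v).trans (le_trans (Nat.add_le_add_right ?_ _) hD1)
      change (c.2.get v).length ≤ D0
      rw [c3, e2, List.map_map]
      simpa [Function.comp_def] using (Nat.le_add_left _ _).trans (sAB v)
    · by_cases h : e ∈ r.2.2
      · exact eal ▸ r7 e h
      · have hb' : e ∈ B :=
          (List.mem_append.1 (p.mem_iff.2 ((mal e).1 he))).resolve_left fun c => h ((mr e).2 c)
        have hx : (2 * e, ([] : List ℕ)) ∈ J.2 := e2 ▸ List.mem_map_of_mem hb'
        have hw : r.1.w.get e = [] := by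
          rw [r8 e h]; have := c1 _ hx; rwa [d2] at this
        refine ⟨by rw [hw]; exact hB e hb', by simp [hw], by simp [hw], fun v => ?_⟩
        rw [hw]
        exact (c5 _ hx v).trans (r9 v _)
  have ph : ∀ l : List Lv, (∀ y ∈ l, y ∈ ls) → phi k.b l = 0 ∧ psi l = 0 := fun l hl => by
    refine ⟨List.sum_eq_zero fun x hx => ?_, List.sum_eq_zero fun x hx => ?_⟩ <;>
      obtain ⟨y, hy, rfl⟩ := List.mem_map.1 hx <;> obtain ⟨p, -, rfl⟩ := mls y (hl y hy) <;> rfl
  have ph1 := (ph ls.tail fun y hy => List.mem_of_mem_tail hy).1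
  have ph2 := (ph ls fun _ h => h).2
  refine ⟨⟨lls, fun y hy => ?_, ?_, by rw [St.cur, ecur], val_zero fun y hy => ?_,
    fun e he _ h => absurd ((mal e).1 he) h⟩, mal, r2, fun e => ?_,
    r4.trans (Nat.mul_le_mul_left _ (Nat.succ_le_succ a7)), ?_, ?_⟩
  · obtain ⟨p, hp, rfl⟩ := mls y hy
    obtain ⟨vx0, s1, s2, s3⟩ := sn
    have m := chain_mono hpr p hp
    exact ⟨⟨vx0, s1, fun v => (s2 v).trans m.2, fun e u v =>
      ⟨(s3 e u v).wk, (s3 e u v).len.trans m.1, (s3 e u v).pub, (s3 e u v).ix⟩⟩,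
      (hpr' p hp).1, (hpr' p hp).2, Nat.zero_le _, fun _ h => nomatch h⟩
  · change ls.IsChain _
    rw [els, List.isChain_reverse, List.isChain_map]
    exact hpr.imp fun y x h => ⟨fun _ h => h, fun e => by simp, fun _ h => (nomatch h),
      List.nodup_nil, fun e _ u _ => ⟨rfl, u⟩, h.1, h.2.1, h.2.2⟩
  · obtain ⟨p, -, rfl⟩ := mls y (List.mem_of_mem_tail hy)
    rfl
  · rw [St.pub, St.cur, ecur]
    change al.get e = true ∧ r.1.h.get e = true ↔ e ∈ r.2.1
    rw [r1, mal]
    exact ⟨fun h => h.2.resolve_left (by simp), fun h => ⟨mA e ((mr e).1 (r3 e h)), .inr h⟩⟩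
  · simp only [Cs.rc, ph1, ph2, mul_zero]
  · simp only [Cs.Phi, ph1, ph2, mul_zero, zero_add, add_zero]
    have l1 : J.1.length = A.length := by rw [e1, List.length_map]
    have l2 : J.2.length = B.length := by rw [e2, List.length_map]
    have u1 : (k.Cb + k.LM + 8) * (J.1.length + 1) ≤ (k.Cb + k.LM + 8) * (I.length + 1) :=
      Nat.mul_le_mul_left _ (by omega)
    have u2 : k.cH * (a.2.1 + 1) ≤ k.cH * (V.length + 1) := Nat.mul_le_mul_left _ (by omega)
    have u3 : (k.Cb + 2 * k.LM + 20) * (I.length + 1) =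
        (k.Cb + k.LM + 8) * (I.length + 1) + (k.LM + 4) * I.length + 8 * I.length + k.LM + 12 := by
      ring
    rw [u3, add_mul k.cH]
    omega

end Crest.Agent.N325.Ds
end

-- ▼ part N325/Pc/Pre
section

/-!
# Row 325 (helper75): greedy pre-marking of a rooted forest

The nodes are handled children first; a node whose residual subtree has `K` nodes is marked.
-/

set_option autoImplicit false

namespace Crest.Agent.N325.Pc

/-- children first: the parent of a node comes later in the list -/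
def CF (par : ℕ → ℕ) : List ℕ → Prop
  | [] => True
  | x :: l => x ∉ l ∧ (par x = x ∨ par x ∈ l) ∧ CF par l

theorem cf_append {par : ℕ → ℕ} {l m : List ℕ} (h : CF par (l ++ m)) : CF par m := by
  induction l with
  | nil => exact h
  | cons a l ih => exact ih h.2.2

theorem CF.nodup {par : ℕ → ℕ} {l : List ℕ} (h : CF par l) : l.Nodup := by
  induction l with
  | nil => exact List.nodup_nil
  | cons a l ih => exact List.nodup_cons.2 ⟨h.1, ih h.2.2⟩

theorem CF.par_mem {par : ℕ → ℕ} {l : List ℕ} (h : CF par l) {x : ℕ} (hx : x ∈ l) : par x ∈ l := by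
  induction l with
  | nil => cases hx
  | cons a l ih =>
    rcases List.mem_cons.1 hx with rfl | hx
    · rcases h.2.1 with e | e
      · rw [e]; exact hx
      · exact List.mem_cons_of_mem _ e
    · exact List.mem_cons_of_mem _ (ih h.2.2 hx)

/-- induction from the roots downwards -/
theorem CF.ind {par : ℕ → ℕ} {l : List ℕ} (h : CF par l) {P : ℕ → Prop}
    (k : ∀ x ∈ l, (par x ≠ x → P (par x)) → P x) : ∀ x ∈ l, P x := by
  induction l with
  | nil => intro x hx; cases hx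
  | cons a l ih =>
    have ih := ih h.2.2 fun x hx => k x (List.mem_cons_of_mem _ hx)
    intro x hx
    rcases List.mem_cons.1 hx with rfl | hx
    · exact k x hx fun e => ih _ (h.2.1.resolve_left e)
    · exact ih x hx

/-- parents first in the usual form gives `CF` for the reversed list -/
theorem cf_reverse {par : ℕ → ℕ} {l : List ℕ} (hn : l.Nodup)
    (h : ∀ p x q, l = p ++ x :: q → par x = x ∨ par x ∈ p) : CF par l.reverse := by
  induction l using List.reverseRecOn with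
  | nil => trivial
  | append_singleton l a ih =>
    rw [List.reverse_append]
    refine ⟨fun k => ?_, ?_, ih (List.nodup_append.1 hn).1 fun p x q e => h p x (q ++ [a]) (by simp [e])⟩
    · exact (List.nodup_append.1 hn).2.2 a (List.mem_reverse.1 k) a (by simp) rfl
    · simpa using h l a [] rfl

theorem cf_of_pl {par : ℕ → ℕ} {l : List ℕ} (hn : l.Nodup) (h : Lt.PL par l) : CF par l := by
  induction l with
  | nil => trivial
  | cons a l ih => exact ⟨(List.nodup_cons.1 hn).1, h.1, ih (List.nodup_cons.1 hn).2 h.2⟩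

/-- the local equations of the root function -/
def RtEq (par : ℕ → ℕ) (M : ℕ → Prop) (l : List ℕ) (rt : ℕ → ℕ) : Prop :=
  ∀ x ∈ l, (M x ∨ par x = x → rt x = x) ∧ (¬(M x ∨ par x = x) → rt x = rt (par x))

theorem RtEq.unique {par : ℕ → ℕ} {M : ℕ → Prop} {l : List ℕ} {r r' : ℕ → ℕ} (h : CF par l)
    (a : RtEq par M l r) (b : RtEq par M l r') : ∀ x ∈ l, r x = r' x :=
  h.ind fun x hx ih => by
    by_cases e : M x ∨ par x = x
    · rw [(a x hx).1 e, (b x hx).1 e]
    · rw [(a x hx).2 e, (b x hx).2 e, ih fun k => e (.inr k)]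

/-- one node -/
def preStep (K : ℕ) (par : Arr ℕ) (x : ℕ) (s : Arr ℕ × List ℕ) : R (Arr ℕ × List ℕ) :=
  if par.get x = x then pure s
  else if K ≤ s.1.get x + 1 then pure (s.1, x :: s.2)
  else nat (s.1.get (par.get x) + (s.1.get x + 1)) >>= fun v => pure (s.1.set (par.get x) v, s.2)

/-- the marks, for a list that has the children first -/
def premarkC (K : ℕ) (par : Arr ℕ) (l : List ℕ) : R (List ℕ) :=
  foldL (preStep K par) l (Arr.cst 0, []) >>= fun s => pure s.2

/-- the marks, for a list that has the parents first -/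
def premark (K : ℕ) (par : Arr ℕ) (ord : List ℕ) : R (List ℕ) := revL ord >>= premarkC K par

/-- the invariant: `D` = nodes done, `top` = current representative -/
structure PreI (K c : ℕ) (par : ℕ → ℕ) (D : List ℕ) (w : ℕ → ℕ) (M : List ℕ) (top : ℕ → ℕ) :
    Prop where
  nd : M.Nodup
  sub : ∀ x ∈ M, x ∈ D ∧ par x ≠ x
  eq : RtEq par (· ∈ M) D top
  out : ∀ z ∉ D, top z = z
  cnt : ∀ z ∉ D, w z = D.countP (top · = z)
  le : ∀ z ∉ D, w z ≤ (K - 1) * D.countP fun y => par y = z ∧ y ≠ z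
  big : ∀ r ∈ D, D.countP (top · = r) ≤ 1 + (K - 1) * c
  num : K * M.length + D.countP (top · ∉ D) ≤ D.length

theorem countP_le_of {D : List ℕ} {p q : ℕ → Bool} (h : ∀ y ∈ D, p y → q y) :
    D.countP p ≤ D.countP q := List.countP_mono_left h

theorem countP_split {D : List ℕ} {p q r : ℕ → Bool} (h : ∀ y ∈ D, (p y).toNat = (q y).toNat + (r y).toNat) :
    D.countP p = D.countP q + D.countP r := by
  induction D with
  | nil => rfl
  | cons a D ih =>
    have := h a List.mem_cons_self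
    have := ih fun y hy => h y (List.mem_cons_of_mem _ hy)
    simp only [List.countP_cons]
    cases hp : p a <;> cases hq : q a <;> cases hr : r a <;> simp_all <;> omega

variable {K c : ℕ} {par : ℕ → ℕ} {D : List ℕ} {w : ℕ → ℕ} {M : List ℕ} {top : ℕ → ℕ} {x : ℕ}

/-- the node `x` closes its piece -/
theorem PreI.close (I : PreI K c par D w M top) (hx : x ∉ D)
    (hc : D.countP (fun y => par y = x ∧ y ≠ x) ≤ c) {M' : List ℕ}
    (hM : (par x = x ∧ M' = M) ∨ (par x ≠ x ∧ K ≤ w x + 1 ∧ M' = x :: M)) :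
    PreI K c par (x :: D) w M' top := by
  have tx := I.out x hx
  have hm : ∀ y, y ≠ x → (y ∈ M' ↔ y ∈ M) := fun y hy => by
    rcases hM with ⟨-, rfl⟩ | ⟨-, -, rfl⟩ <;> simp [hy]
  have sp : D.countP (top · ∉ D) = D.countP (top · ∉ x :: D) + D.countP (top · = x) :=
    countP_split fun y _ => by
      by_cases e : top y = x
      · simp [e, hx]
      · simp [e]
  refine ⟨?_, fun y hy => ?_, fun y hy => ?_, fun z hz => I.out z fun k => hz (.tail _ k),
    fun z hz => ?_, fun z hz => ?_, fun r hr => ?_, ?_⟩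
  · rcases hM with ⟨-, rfl⟩ | ⟨-, -, rfl⟩
    exacts [I.nd, List.nodup_cons.2 ⟨fun k => hx (I.sub x k).1, I.nd⟩]
  · rcases hM with ⟨-, rfl⟩ | ⟨k, -, rfl⟩
    · exact ⟨.tail _ (I.sub y hy).1, (I.sub y hy).2⟩
    · rcases List.mem_cons.1 hy with rfl | hy
      exacts [⟨.head _, k⟩, ⟨.tail _ (I.sub y hy).1, (I.sub y hy).2⟩]
  · rcases List.mem_cons.1 hy with rfl | hy
    · refine ⟨fun _ => tx, fun k => absurd ?_ k⟩
      rcases hM with ⟨k, -⟩ | ⟨-, -, rfl⟩
      exacts [.inr k, .inl (.head _)]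
    · simp only [hm y fun e => hx (e ▸ hy)]
      exact I.eq y hy
  · have : x ≠ z := fun e => hz (e ▸ .head _)
    rw [List.countP_cons, I.cnt z fun k => hz (.tail _ k)]
    simp [tx, this]
  · refine (I.le z fun k => hz (.tail _ k)).trans (Nat.mul_le_mul_left _ ?_)
    rw [List.countP_cons]; omega
  · rw [List.countP_cons]
    by_cases e : r = x
    · subst e
      have := I.cnt r hx
      have := (I.le r hx).trans (Nat.mul_le_mul_left _ hc)
      split_ifs <;> omega
    · have := I.big r ((List.mem_cons.1 hr).resolve_left e)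
      have e' : ¬x = r := fun k => e k.symm
      simpa [tx, e'] using this
  · have := I.num
    have := I.cnt x hx
    rw [List.countP_cons, List.length_cons]
    have e : ¬(decide (top x ∉ x :: D) = true) := by simp [tx]
    rw [if_neg e]
    rcases hM with ⟨-, rfl⟩ | ⟨-, k, rfl⟩
    · omega
    · rw [List.length_cons, mul_add]; omega

/-- the node `x` hands its weight to its parent -/
theorem PreI.push (I : PreI K c par D w M top) (hx : x ∉ D) (hp : par x ∉ D) (hr : par x ≠ x)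
    (hK : w x + 1 < K) :
    PreI K c par (x :: D) (Function.update w (par x) (w (par x) + (w x + 1))) M
      fun y => if top y = x then par x else top y := by
  have tx := I.out x hx
  have tp := I.out _ hp
  have nm : x ∉ M := fun k => hx (I.sub x k).1
  refine ⟨I.nd, fun y hy => ⟨.tail _ (I.sub y hy).1, (I.sub y hy).2⟩, fun y hy => ?_,
    fun z hz => ?_, fun z hz => ?_, fun z hz => ?_, fun r hr' => ?_, ?_⟩
  · rcases List.mem_cons.1 hy with rfl | hy
    · exact ⟨fun k => absurd k (by simp [nm, hr]), fun _ => by simp [tx, tp]⟩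
    · refine ⟨fun k => ?_, fun k => by simp only [(I.eq y hy).2 k]⟩
      have : y ≠ x := fun e => hx (e ▸ hy)
      simp [(I.eq y hy).1 k, this]
  · have : z ≠ x := fun e => hz (e ▸ .head _)
    simp [I.out z fun k => hz (.tail _ k), this]
  · have zx : z ≠ x := fun e => hz (e ▸ .head _)
    have zD : z ∉ D := fun k => hz (.tail _ k)
    rw [List.countP_cons]
    by_cases e : z = par x
    · subst e
      rw [Function.update_self, I.cnt _ hp, I.cnt x hx, countP_split (D := D)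
        (p := fun y => (if top y = x then par x else top y) = par x) (q := (top · = par x))
        (r := (top · = x)) fun y _ => by
          by_cases k : top y = x
          · simp [k, hr.symm]
          · simp [k]]
      simp [tx]; omega
    · rw [Function.update_of_ne e, I.cnt z zD]
      have e' : ¬par x = z := fun k => e k.symm
      simp only [tx, if_true, e', decide_false, Bool.false_eq_true, if_false, add_zero]
      refine List.countP_congr fun y _ => ?_
      by_cases k : top y = x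
      · simp [k, e', zx.symm]
      · simp [k]
  · have zD : z ∉ D := fun k => hz (.tail _ k)
    have := I.le z zD
    rw [List.countP_cons]
    by_cases e : z = par x
    · subst e
      rw [Function.update_self, if_pos (by simp [hr.symm]), mul_add]; omega
    · rw [Function.update_of_ne e]
      exact this.trans (Nat.mul_le_mul_left _ (Nat.le_add_right _ _))
  · have e : ¬par x = r := fun k => by
      rcases List.mem_cons.1 hr' with rfl | h
      exacts [hr k, hp (k ▸ h)]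
    rw [List.countP_cons]
    simp only [tx, if_true, e, decide_false, Bool.false_eq_true, if_false, add_zero]
    rcases List.mem_cons.1 hr' with rfl | h
    · rw [List.countP_eq_zero.2 fun y _ => by by_cases k : top y = r <;> simp [k, e]]
      exact Nat.zero_le _
    · refine le_trans (countP_le_of fun y _ => ?_) (I.big r h)
      by_cases k : top y = x
      · simp [k, e]
      · simp [k]
  · have := I.num
    have : D.countP (fun y => (if top y = x then par x else top y) ∉ x :: D) ≤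
        D.countP (top · ∉ D) := countP_le_of fun y _ => by
      by_cases k : top y = x
      · simp [k, hx]
      · simp [k]
    rw [List.countP_cons, List.length_cons]
    split_ifs <;> omega

/-- what the marks achieve -/
structure PreRes (K c : ℕ) (par : ℕ → ℕ) (l M : List ℕ) : Prop where
  nd : M.Nodup
  sub : ∀ x ∈ M, x ∈ l ∧ par x ≠ x
  num : K * M.length ≤ l.length
  big : ∀ rt, RtEq par (· ∈ M) l rt → ∀ r, l.countP (rt · = r) ≤ 1 + (K - 1) * c

theorem sp_premarkC {g : Gl} {par : Arr ℕ} {l : List ℕ} (h : CF par.get l)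
    (hc : ∀ x ∈ l, l.countP (fun y => par.get y = x ∧ y ≠ x) ≤ c) (hX : l.length ≤ g.X) :
    Sp g (premarkC K par l) fun M t => PreRes K c par.get l M ∧ t ≤ l.length + 1 := by
  have key := sp_foldL' (g := g) (f := preStep K par)
    (fun l' s => ∃ D top, D.reverse ++ l' = l ∧ PreI K c par.get D s.1.get s.2 top) (fun _ => 0)
    (fun x l' s ⟨D, top, e, I⟩ => ?_) (l := l) (s := (Arr.cst 0, []))
    ⟨[], id, rfl, ⟨List.nodup_nil, by simp, by simp [RtEq], by simp, by simp, by simp, by simp, by simp⟩⟩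
  · refine key.bind fun s t ⟨⟨D, top, e, I⟩, k⟩ => ?_
    rw [List.append_nil] at e
    have hm : ∀ y, y ∈ D ↔ y ∈ l := fun y => by rw [← e, List.mem_reverse]
    have hl : D.length = l.length := by rw [← e, List.length_reverse]
    refine sp_pure.2 ⟨⟨I.nd, fun x hx => ⟨(hm x).1 (I.sub x hx).1, (I.sub x hx).2⟩,
      by have := I.num; omega, fun rt hrt r => ?_⟩, by simpa using k⟩
    have u := RtEq.unique h hrt (r' := top) fun x hx => I.eq x ((hm x).2 hx)
    have c1 : l.countP (rt · = r) = D.countP (top · = r) := by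
      rw [List.countP_congr (q := (top · = r)) fun y hy => by simp [u y hy], ← e,
        List.countP_reverse]
    rw [c1]
    by_cases hr : r ∈ D
    · exact I.big r hr
    · have hin : ∀ y ∈ l, top y ∈ l := h.ind fun y hy ih => by
        by_cases k : y ∈ s.2 ∨ par.get y = y
        · rw [(I.eq y ((hm y).2 hy)).1 k]; exact hy
        · rw [(I.eq y ((hm y).2 hy)).2 k]; exact ih fun k' => k (.inr k')
      rw [List.countP_eq_zero.2 fun y hy k => hr ((hm r).2 (by
        rw [← of_decide_eq_true k]; exact hin y ((hm y).1 hy)))]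
      exact Nat.zero_le _
  · have nd := h.nodup
    have cf : CF par.get (x :: l') := cf_append (e ▸ h)
    rw [← e, List.nodup_append] at nd
    have xD : x ∉ D := fun k => nd.2.2 x (List.mem_reverse.2 k) x (.head _) rfl
    have e' : (x :: D).reverse ++ l' = l := by rw [← e]; simp
    have hc' : D.countP (fun y => par.get y = x ∧ y ≠ x) ≤ c := by
      refine le_trans ?_ (hc x (by rw [← e]; simp))
      rw [← e, List.countP_append, List.countP_reverse]; omega
    unfold preStep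
    split_ifs with h1 h2
    · exact ⟨⟨_, top, e', I.close xD hc' (.inl ⟨h1, rfl⟩)⟩, le_rfl⟩
    · exact ⟨⟨_, top, e', I.close xD hc' (.inr ⟨h1, h2, rfl⟩)⟩, le_rfl⟩
    · have pD : par.get x ∉ D := fun k =>
        nd.2.2 _ (List.mem_reverse.2 k) _ (.tail _ (cf.2.1.resolve_left h1)) rfl
      have J := I.push xD pD h1 (by omega)
      refine sp_bind.2 (sp_nat.2 ⟨?_, ⟨_, _, e', by rw [Arr.set_get]; exact J⟩, le_rfl⟩)
      have := J.cnt (par.get x) (by simp [h1, pD])
      rw [Function.update_self] at this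
      rw [this]
      refine List.countP_le_length.trans (le_trans ?_ hX)
      rw [← e']; simp

theorem PreRes.reverse {l : List ℕ} (h : PreRes K c par l.reverse M) : PreRes K c par l M :=
  ⟨h.nd, fun x hx => by simpa using h.sub x hx, by simpa using h.num, fun rt k r => by
    have := h.big rt (fun x hx => k x (List.mem_reverse.1 hx)) r
    rwa [List.countP_reverse] at this⟩

/-- **pre-marking** -/
theorem sp_premark {g : Gl} {par : Arr ℕ} {ord : List ℕ} (h : CF par.get ord.reverse)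
    (hc : ∀ x ∈ ord, ord.countP (fun y => par.get y = x ∧ y ≠ x) ≤ c) (hX : ord.length ≤ g.X) :
    Sp g (premark K par ord) fun M t => PreRes K c par.get ord M ∧ t ≤ 2 * ord.length + 2 :=
  (sp_revL ord).bind fun r t k => by
    rw [k.1]
    refine (sp_premarkC (c := c) h (fun x hx => ?_) (by simpa using hX)).mono fun M s k' =>
      ⟨k'.1.reverse, by have := k'.2; rw [List.length_reverse] at this; omega⟩
    rw [List.countP_reverse]; exact hc x (List.mem_reverse.1 hx)

/-- **pre-marking**, in the form of `Lt.LF.Ok` (children first) -/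
theorem sp_premarkC' {g : Gl} {par : Arr ℕ} {l : List ℕ} (hn : l.Nodup) (h : Lt.PL par.get l)
    (hc : ∀ y, (l.filter fun x => par.get x = y ∧ x ≠ y).length ≤ c) (hX : l.length ≤ g.X) :
    Sp g (premarkC K par l) fun M t => PreRes K c par.get l M ∧ t ≤ l.length + 1 :=
  sp_premarkC (cf_of_pl hn h) (fun x _ => by rw [List.countP_eq_length_filter]; exact hc x) hX

@[fun_prop] theorem impl_premarkC {α : Type} [Rp α] {K : α → ℕ} {par : α → Arr ℕ}
    {l : α → List ℕ} (h1 : Pu true K) (h2 : Pu true par) (h3 : Pu true l) :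
    Impl fun a => premarkC (K a) (par a) (l a) := by
  impl

@[fun_prop] theorem impl_premark {α : Type} [Rp α] {K : α → ℕ} {par : α → Arr ℕ} {l : α → List ℕ}
    (h1 : Pu true K) (h2 : Pu true par) (h3 : Pu true l) :
    Impl fun a => premark (K a) (par a) (l a) := by
  impl

end Crest.Agent.N325.Pc
end

-- ▼ part N325/Pc/Bld0
section

/-!
# Row 325 (helper75): the weighted greedy marking of `build`
-/

set_option autoImplicit false

namespace Crest.Agent.N325.Pc

/-- weight of the entries with `p` -/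
def wsm (wt : ℕ → ℕ) (D : List ℕ) (p : ℕ → Prop) [DecidablePred p] : ℕ :=
  (D.map fun y => if p y then wt y else 0).sum

section wsm
variable {wt : ℕ → ℕ} {D : List ℕ} {p q r : ℕ → Prop} [DecidablePred p] [DecidablePred q]
  [DecidablePred r]

theorem wsm_cons (a : ℕ) : wsm wt (a :: D) p = (if p a then wt a else 0) + wsm wt D p := by
  simp [wsm]

theorem wsm_le (h : ∀ y ∈ D, p y → q y) : wsm wt D p ≤ wsm wt D q :=
  List.sum_le_sum fun y hy => by
    by_cases e : p y
    · rw [if_pos e, if_pos (h y hy e)]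
    · rw [if_neg e]; exact Nat.zero_le _

theorem wsm_congr (h : ∀ y ∈ D, p y ↔ q y) : wsm wt D p = wsm wt D q :=
  (wsm_le fun y hy => (h y hy).1).antisymm (wsm_le fun y hy => (h y hy).2)

theorem wsm_zero (h : ∀ y ∈ D, ¬p y) : wsm wt D p = 0 :=
  List.sum_eq_zero fun z hz => by
    obtain ⟨y, hy, rfl⟩ := List.mem_map.1 hz
    exact if_neg (h y hy)

theorem wsm_split (h : ∀ y ∈ D, (p y ↔ q y ∨ r y) ∧ ¬(q y ∧ r y)) :
    wsm wt D p = wsm wt D q + wsm wt D r := by
  induction D with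
  | nil => rfl
  | cons a D ih =>
    have k := h a List.mem_cons_self
    rw [wsm_cons, wsm_cons, wsm_cons, ih fun y hy => h y (List.mem_cons_of_mem _ hy)]
    by_cases e1 : q a <;> by_cases e2 : r a <;> simp_all <;> omega

theorem wsm_le_sum : wsm wt D p ≤ (D.map wt).sum :=
  List.sum_le_sum fun y _ => by split_ifs <;> omega

theorem wsm_reverse : wsm wt D.reverse p = wsm wt D p := by
  simp only [wsm, List.map_reverse, List.sum_reverse]

theorem wsm_filter : wsm wt D p = ((D.filter fun y => p y).map wt).sum := by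
  induction D with
  | nil => rfl
  | cons a D ih =>
    rw [wsm_cons, ih, List.filter_cons]
    by_cases e : p a <;> simp [e]

end wsm

/-- the invariant: `D` = nodes done, `top` = current representative -/
structure PreW (K W c : ℕ) (par wt : ℕ → ℕ) (D : List ℕ) (w : ℕ → ℕ) (cut : ℕ → Bool)
    (M : List ℕ) (top : ℕ → ℕ) : Prop where
  nd : M.Nodup
  sub : ∀ x ∈ M, x ∈ D ∧ par x ≠ x
  cut : ∀ x, cut x = true ↔ x ∈ D ∧ (x ∈ M ∨ par x = x)
  eq : RtEq par (· ∈ M) D top
  out : ∀ z ∉ D, top z = z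
  cnt : ∀ z ∉ D, w z = wsm wt D (top · = z)
  le : ∀ z ∉ D, w z ≤ K * D.countP fun y => par y = z ∧ y ≠ z
  big : ∀ r ∈ D, wsm wt D (top · = r) ≤ W + K * c
  num : K * M.length + wsm wt D (top · ∉ D) ≤ (D.map wt).sum

variable {K W c : ℕ} {par wt : ℕ → ℕ} {D : List ℕ} {w : ℕ → ℕ} {cut : ℕ → Bool} {M : List ℕ}
  {top : ℕ → ℕ} {x : ℕ}

/-- the node `x` closes its piece -/
theorem PreW.close (I : PreW K W c par wt D w cut M top) (hx : x ∉ D) (hW : wt x ≤ W)
    (hc : D.countP (fun y => par y = x ∧ y ≠ x) ≤ c) {M' : List ℕ}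
    (hM : (par x = x ∧ M' = M) ∨ (par x ≠ x ∧ K ≤ w x + wt x ∧ M' = x :: M)) :
    PreW K W c par wt (x :: D) w (Function.update cut x true) M' top := by
  have tx := I.out x hx
  have hm : ∀ y, y ≠ x → (y ∈ M' ↔ y ∈ M) := fun y hy => by
    rcases hM with ⟨-, rfl⟩ | ⟨-, -, rfl⟩ <;> simp [hy]
  have hx' : x ∈ M' ∨ par x = x := by
    rcases hM with ⟨k, -⟩ | ⟨-, -, rfl⟩
    exacts [.inr k, .inl (.head _)]
  have sp : wsm wt D (top · ∉ D) = wsm wt D (top · ∉ x :: D) + wsm wt D (top · = x) :=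
    wsm_split fun y _ => by
      by_cases e : top y = x
      · simp [e, hx]
      · simp [e]
  refine ⟨?_, fun y hy => ?_, fun y => ?_, fun y hy => ?_,
    fun z hz => I.out z fun k => hz (.tail _ k), fun z hz => ?_, fun z hz => ?_, fun r hr => ?_, ?_⟩
  · rcases hM with ⟨-, rfl⟩ | ⟨-, -, rfl⟩
    exacts [I.nd, List.nodup_cons.2 ⟨fun k => hx (I.sub x k).1, I.nd⟩]
  · rcases hM with ⟨-, rfl⟩ | ⟨k, -, rfl⟩
    · exact ⟨.tail _ (I.sub y hy).1, (I.sub y hy).2⟩
    · rcases List.mem_cons.1 hy with rfl | hy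
      exacts [⟨.head _, k⟩, ⟨.tail _ (I.sub y hy).1, (I.sub y hy).2⟩]
  · by_cases e : y = x
    · subst e; simp [hx']
    · rw [Function.update_of_ne e, I.cut y, hm y e]; simp [e]
  · rcases List.mem_cons.1 hy with rfl | hy
    · exact ⟨fun _ => tx, fun k => absurd hx' k⟩
    · simp only [hm y fun e => hx (e ▸ hy)]
      exact I.eq y hy
  · have : x ≠ z := fun e => hz (e ▸ .head _)
    rw [wsm_cons, I.cnt z fun k => hz (.tail _ k)]
    simp [tx, this]
  · refine (I.le z fun k => hz (.tail _ k)).trans (Nat.mul_le_mul_left _ ?_)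
    rw [List.countP_cons]; omega
  · rw [wsm_cons]
    by_cases e : r = x
    · subst e
      have := I.cnt r hx
      have := (I.le r hx).trans (Nat.mul_le_mul_left _ hc)
      split_ifs <;> omega
    · have := I.big r ((List.mem_cons.1 hr).resolve_left e)
      have e' : ¬x = r := fun k => e k.symm
      simpa [tx, e'] using this
  · have := I.num
    have := I.cnt x hx
    rw [wsm_cons, List.map_cons, List.sum_cons, if_neg (by simp [tx])]
    rcases hM with ⟨-, rfl⟩ | ⟨-, k, rfl⟩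
    · omega
    · rw [List.length_cons, mul_add]; omega

/-- the node `x` hands its weight to its parent -/
theorem PreW.push (I : PreW K W c par wt D w cut M top) (hx : x ∉ D) (hp : par x ∉ D)
    (hr : par x ≠ x) (hK : w x + wt x < K) :
    PreW K W c par wt (x :: D) (Function.update w (par x) (w (par x) + (w x + wt x))) cut M
      fun y => if top y = x then par x else top y := by
  have tx := I.out x hx
  have tp := I.out _ hp
  have nm : x ∉ M := fun k => hx (I.sub x k).1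
  refine ⟨I.nd, fun y hy => ⟨.tail _ (I.sub y hy).1, (I.sub y hy).2⟩, fun y => ?_, fun y hy => ?_,
    fun z hz => ?_, fun z hz => ?_, fun z hz => ?_, fun r hr' => ?_, ?_⟩
  · rw [I.cut y]
    by_cases e : y = x
    · subst e; simp [hx, nm, hr]
    · simp [e]
  · rcases List.mem_cons.1 hy with rfl | hy
    · exact ⟨fun k => absurd k (by simp [nm, hr]), fun _ => by simp [tx, tp]⟩
    · refine ⟨fun k => ?_, fun k => by simp only [(I.eq y hy).2 k]⟩
      have : y ≠ x := fun e => hx (e ▸ hy)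
      simp [(I.eq y hy).1 k, this]
  · have : z ≠ x := fun e => hz (e ▸ .head _)
    simp [I.out z fun k => hz (.tail _ k), this]
  · have zx : z ≠ x := fun e => hz (e ▸ .head _)
    have zD : z ∉ D := fun k => hz (.tail _ k)
    rw [wsm_cons]
    by_cases e : z = par x
    · subst e
      rw [Function.update_self, I.cnt _ hp, I.cnt x hx, wsm_split (D := D)
        (p := fun y => (if top y = x then par x else top y) = par x) (q := (top · = par x))
        (r := (top · = x)) fun y _ => by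
          by_cases k : top y = x
          · simp [k, hr.symm]
          · simp [k]]
      simp [tx]; omega
    · rw [Function.update_of_ne e, I.cnt z zD]
      have e' : ¬par x = z := fun k => e k.symm
      simp only [tx, if_true, e', if_false, zero_add]
      refine wsm_congr fun y _ => ?_
      by_cases k : top y = x
      · simp [k, e', zx.symm]
      · simp [k]
  · have zD : z ∉ D := fun k => hz (.tail _ k)
    have := I.le z zD
    rw [List.countP_cons]
    by_cases e : z = par x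
    · subst e
      rw [Function.update_self, if_pos (by simp [hr.symm]), mul_add]; omega
    · rw [Function.update_of_ne e]
      exact this.trans (Nat.mul_le_mul_left _ (Nat.le_add_right _ _))
  · have e : ¬par x = r := fun k => by
      rcases List.mem_cons.1 hr' with rfl | h
      exacts [hr k, hp (k ▸ h)]
    rw [wsm_cons]
    simp only [tx, if_true, e, if_false, zero_add]
    rcases List.mem_cons.1 hr' with rfl | h
    · rw [wsm_zero fun y _ => by by_cases k : top y = r <;> simp [k, e]]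
      exact Nat.zero_le _
    · refine le_trans (wsm_le fun y _ => ?_) (I.big r h)
      by_cases k : top y = x
      · simp [k, e]
      · simp [k]
  · have := I.num
    have : wsm wt D (fun y => (if top y = x then par x else top y) ∉ x :: D) ≤
        wsm wt D (top · ∉ D) := wsm_le fun y _ => by
      by_cases k : top y = x
      · simp [k, hx]
      · simp [k]
    rw [wsm_cons, List.map_cons, List.sum_cons]
    split_ifs <;> omega

/-- what the marks achieve -/
structure PreOut (K W c : ℕ) (par wt : ℕ → ℕ) (l : List ℕ) (cut : ℕ → Bool) (M : List ℕ) :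
    Prop where
  nd : M.Nodup
  sub : ∀ x ∈ M, x ∈ l ∧ par x ≠ x
  cut : ∀ x, cut x = true ↔ x ∈ l ∧ (x ∈ M ∨ par x = x)
  num : K * M.length ≤ (l.map wt).sum
  big : ∀ rt, RtEq par (· ∈ M) l rt → ∀ r, wsm wt l (rt · = r) ≤ W + K * c

theorem sp_preS {g : Gl} {F : Fo} {wt : Arr ℕ} {l : List ℕ} (h : CF F.par.get l)
    (hW : ∀ x ∈ l, wt.get x ≤ W)
    (hc : ∀ x ∈ l, l.countP (fun y => F.par.get y = x ∧ y ≠ x) ≤ c)
    (hX : (l.map wt.get).sum ≤ g.X) :
    Sp g (foldL (preS F wt K) l (Arr.cst 0, Arr.cst false, [])) fun r t =>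
      PreOut K W c F.par.get wt.get l r.2.1.get r.2.2 ∧ t ≤ l.length + 1 := by
  have key := sp_foldL' (g := g) (f := preS F wt K)
    (fun l' s => ∃ D top, D.reverse ++ l' = l ∧
      PreW K W c F.par.get wt.get D s.1.get s.2.1.get s.2.2 top) (fun _ => 0)
    (fun x l' s ⟨D, top, e, I⟩ => ?_) (l := l) (s := (Arr.cst 0, Arr.cst false, []))
    ⟨[], id, rfl, ⟨List.nodup_nil, by simp, by simp, by simp [RtEq], by simp, by simp [wsm],
      by simp, by simp, by simp [wsm]⟩⟩
  · refine key.mono fun s t ⟨⟨D, top, e, I⟩, k⟩ => ?_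
    rw [List.append_nil] at e
    have hm : ∀ y, y ∈ D ↔ y ∈ l := fun y => by rw [← e, List.mem_reverse]
    have hl : (D.map wt.get).sum = (l.map wt.get).sum := by
      rw [← e, List.map_reverse, List.sum_reverse]
    refine ⟨⟨I.nd, fun x hx => ⟨(hm x).1 (I.sub x hx).1, (I.sub x hx).2⟩,
      fun x => by rw [I.cut x, hm x], by have := I.num; omega, fun rt hrt r => ?_⟩, by simpa using k⟩
    have u := RtEq.unique h hrt (r' := top) fun x hx => I.eq x ((hm x).2 hx)
    have c1 : wsm wt.get l (rt · = r) = wsm wt.get D (top · = r) := by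
      rw [wsm_congr (q := (top · = r)) fun y hy => by simp [u y hy], ← e, wsm_reverse]
    rw [c1]
    by_cases hr : r ∈ D
    · exact I.big r hr
    · have hin : ∀ y ∈ l, top y ∈ l := h.ind fun y hy ih => by
        by_cases k : y ∈ s.2.2 ∨ F.par.get y = y
        · rw [(I.eq y ((hm y).2 hy)).1 k]; exact hy
        · rw [(I.eq y ((hm y).2 hy)).2 k]; exact ih fun k' => k (.inr k')
      rw [wsm_zero fun y hy k => hr ((hm r).2 (by rw [← k]; exact hin y ((hm y).1 hy)))]
      exact Nat.zero_le _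
  · have nd := h.nodup
    have cf : CF F.par.get (x :: l') := cf_append (e ▸ h)
    rw [← e, List.nodup_append] at nd
    have xD : x ∉ D := fun k => nd.2.2 x (List.mem_reverse.2 k) x (.head _) rfl
    have e' : (x :: D).reverse ++ l' = l := by rw [← e]; simp
    have xl : x ∈ l := by rw [← e]; simp
    have hc' : D.countP (fun y => F.par.get y = x ∧ y ≠ x) ≤ c := by
      refine le_trans ?_ (hc x xl)
      rw [← e, List.countP_append, List.countP_reverse]; omega
    have hs : ((x :: D).map wt.get).sum ≤ g.X := by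
      refine le_trans ?_ hX
      rw [← e', List.map_append, List.sum_append, List.map_reverse, List.sum_reverse]; omega
    have h0 : s.1.get x ≤ (D.map wt.get).sum := by rw [I.cnt x xD]; exact wsm_le_sum
    unfold preS
    refine sp_bind.2 (sp_nat.2 ⟨by rw [List.map_cons, List.sum_cons] at hs; omega, ?_⟩)
    split_ifs with h1 h2
    · exact ⟨⟨_, top, e', by
        rw [Arr.set_get]; exact I.close xD (hW x xl) hc' (.inl ⟨h1, rfl⟩)⟩, le_rfl⟩
    · exact ⟨⟨_, top, e', by
        rw [Arr.set_get]; exact I.close xD (hW x xl) hc' (.inr ⟨h1, h2, rfl⟩)⟩, le_rfl⟩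
    · have pD : F.par.get x ∉ D := fun k =>
        nd.2.2 _ (List.mem_reverse.2 k) _ (.tail _ (cf.2.1.resolve_left h1)) rfl
      have J := I.push xD pD h1 (by omega)
      refine sp_bind.2 (sp_nat.2 ⟨?_, ⟨_, _, e', by rw [Arr.set_get]; exact J⟩, le_rfl⟩)
      have := J.cnt (F.par.get x) (by simp [h1, pD])
      rw [Function.update_self] at this
      rw [this]
      exact wsm_le_sum.trans hs

end Crest.Agent.N325.Pc
end

-- ▼ part N325/Pc/Bld1
section

/-!
# Row 325 (helper75): the state of `build` before the hard marks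
-/

set_option autoImplicit false
open Finset

namespace Crest.Agent.N325.Pc

theorem Ord.cf {F : Fo} {V : Finset ℕ} {ord : List ℕ} (h : Ord F V ord) : CF F.par.get ord := by
  have : ∀ l, l.Nodup → (∀ p x m, l = p ++ x :: m → F.par.get x ≠ x → F.par.get x ∈ m) →
      CF F.par.get l := fun l => by
    induction l with
    | nil => exact fun _ _ => trivial
    | cons a l ih =>
      exact fun n u => ⟨(List.nodup_cons.1 n).1, or_iff_not_imp_left.2 (u [] a l rfl),
        ih (List.nodup_cons.1 n).2 fun p x m e => u (a :: p) x m (by rw [e]; rfl)⟩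
  exact this ord h.nd h.up

theorem CF.up {par : ℕ → ℕ} {l : List ℕ} (h : CF par l) {p m : List ℕ} {x : ℕ}
    (e : l = p ++ x :: m) (k : par x ≠ x) : par x ∈ m :=
  (cf_append (e ▸ h : CF par (p ++ x :: m))).2.1.resolve_left k

/-- the list of `Lt.LF.Ok` is an `Ord` -/
theorem ord_of_pl {F : Fo} {ord : List ℕ} (hn : ord.Nodup) (h : Lt.PL F.par.get ord) :
    Ord F ord.toFinset ord :=
  ⟨hn, fun _ => List.mem_toFinset.symm, fun _ _ _ e k => (cf_of_pl hn h).up e k⟩

theorem Ord.eq {F : Fo} {V : Finset ℕ} {ord : List ℕ} (h : Ord F V ord) : V = ord.toFinset :=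
  Finset.ext fun x => by rw [List.mem_toFinset, h.mem]

theorem Ord.sum {F : Fo} {V : Finset ℕ} {ord : List ℕ} (h : Ord F V ord) (f : ℕ → ℕ) :
    (ord.map f).sum = ∑ x ∈ V, f x := by rw [h.eq, List.sum_toFinset f h.nd]

theorem Ord.card {F : Fo} {V : Finset ℕ} {ord : List ℕ} (h : Ord F V ord) :
    ord.length = V.card := by rw [h.eq, List.toFinset_card_of_nodup h.nd]

theorem Ord.countP {F : Fo} {V : Finset ℕ} {ord : List ℕ} (h : Ord F V ord) (p : ℕ → Prop)
    [DecidablePred p] : ord.countP (fun y => p y) = (V.filter p).card := by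
  rw [List.countP_eq_length_filter, ← List.toFinset_card_of_nodup (h.nd.filter _),
    List.toFinset_filter, h.eq]
  simp

theorem foldl_rt {par : ℕ → ℕ} {cut : ℕ → Bool} {l : List ℕ} (h : CF par l)
    (ht : ∀ x ∈ l, par x = x → cut x = true) (a : Arr ℕ) : ∀ x ∈ l,
      (l.reverse.foldl (fun (a : Arr ℕ) y => a.set y (if cut y = true then y else a.get (par y)))
        a).get x = if cut x = true then x else
      (l.reverse.foldl (fun (a : Arr ℕ) y => a.set y (if cut y = true then y else a.get (par y)))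
        a).get (par x) := by
  induction l with
  | nil => intro x hx; cases hx
  | cons z l ih =>
    have ih := ih h.2.2 fun x hx => ht x (.tail _ hx)
    intro x hx
    rw [List.reverse_cons, List.foldl_append, List.foldl_cons, List.foldl_nil]
    by_cases c : cut x = true
    · rw [if_pos c]
      rcases List.mem_cons.1 hx with rfl | hx
      · rw [Arr.get_set_self, if_pos c]
      · rw [Arr.get_set_ne _ (ne_of_mem_of_not_mem hx h.1), ih x hx, if_pos c]
    · rw [if_neg c]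
      have n : par x ≠ x := fun e => c (ht x hx e)
      rcases List.mem_cons.1 hx with rfl | hx
      · rw [Arr.get_set_self, if_neg c, Arr.get_set_ne _ n]
      · rw [Arr.get_set_ne _ (ne_of_mem_of_not_mem hx h.1), ih x hx, if_neg c,
          Arr.get_set_ne _ (ne_of_mem_of_not_mem (h.2.2.par_mem hx) h.1)]

theorem CF.filter_up {par : ℕ → ℕ} {l : List ℕ} (h : CF par l) {p : ℕ → Bool} {A B : List ℕ}
    {y : ℕ} (e : l.filter p = A ++ y :: B) (n : par y ≠ y) (k : p (par y) = true) : par y ∈ B := by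
  induction l generalizing A with
  | nil => simp at e
  | cons z l ih =>
    rw [List.filter_cons] at e
    split_ifs at e with c
    · cases A with
      | nil =>
        obtain ⟨rfl, rfl⟩ := List.cons.inj e
        exact List.mem_filter.2 ⟨h.2.1.resolve_left n, k⟩
      | cons a A => exact ih h.2.2 (List.cons.inj e).2
    · exact ih h.2.2 e

/-- the state before the hard marks -/
structure Init (F : Fo) (V : Finset ℕ) (wt : ℕ → ℕ) (K K0 : ℕ) (s : St) (M : List ℕ) : Prop where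
  p : InvP F V wt K s
  pth : s.pth = Arr.cst []
  cov : s.cov = Arr.cst 0
  mrk : ∀ x, s.cut.get x = true ↔ x ∈ V ∧ (x ∈ M ∨ F.par.get x = x)
  nd : M.Nodup
  sub : ∀ x ∈ M, x ∈ V ∧ F.par.get x ≠ x
  num : K0 * M.length ≤ ∑ x ∈ V, wt x

theorem Init.e {F : Fo} {V : Finset ℕ} {wt : ℕ → ℕ} {K K0 : ℕ} {s : St} {M : List ℕ}
    (h : Init F V wt K K0 s M) : InvE F V K [] s :=
  ⟨fun u k => by simp [h.pth] at k, fun u => by simp [h.pth], fun x u => by simp [h.pth, h.cov],
    fun x _ k => by simp [h.cov] at k⟩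

theorem Init.fin {F : Fo} {V : Finset ℕ} {wt : ℕ → ℕ} {K K0 : ℕ} {s : St} {M : List ℕ}
    (h : Init F V wt K K0 s M) : s.End := fun u k => by simp [h.pth] at k

/-- `build` up to the call of `hard` -/
theorem sp_build_of {g : Gl} {F : Fo} {V : Finset ℕ} {K K0 W De : ℕ} {wt : Arr ℕ}
    {ord : List ℕ} (hO : Ord F V ord) (hw : ∀ x ∈ V, 1 ≤ wt.get x ∧ wt.get x ≤ W)
    (hc : ∀ x ∈ V, (V.filter fun y => F.par.get y = x ∧ y ≠ x).card ≤ De) (hK : W + De * K0 ≤ K)
    (hX : ∑ x ∈ V, wt.get x ≤ g.X) {Q : St × List ℕ → ℕ → Prop}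
    (k : ∀ s M t0, Init F V wt.get K K0 s M → t0 ≤ 4 * V.card + 4 →
      Sp g (hard F M (s, [])) fun r t => Q (r.1.1, r.2.1) (t0 + t)) :
    Sp g (build F wt K0 ord) Q := by
  have cf := hO.cf
  have hl := hO.card
  refine (sp_preS (K := K0) (W := W) (c := De) cf (fun x hx => (hw x ((hO.mem x).1 hx)).2)
    (fun x hx => by rw [hO.countP]; exact hc x ((hO.mem x).1 hx))
    (by rw [hO.sum]; exact hX)).bind fun r t1 ⟨P, h1⟩ => ?_
  refine (sp_revL ord).bind fun td t2 ⟨e2, h2⟩ => ?_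
  refine (sp_foldP _ td _).bind fun bp t3 ⟨e3, h3⟩ => ?_
  refine (sp_bucketP bp.get ord _).bind fun mem t4 ⟨e4, h4⟩ => ?_
  have top : ∀ x ∈ ord, F.par.get x = x → r.2.1.get x = true := fun x hx e =>
    (P.cut x).2 ⟨hx, .inr e⟩
  have hb : ∀ x ∈ ord, bp.get x = if r.2.1.get x = true then x else bp.get (F.par.get x) := by
    rw [e3, e2]; exact foldl_rt cf top _
  simp only [Arr.get_cst, List.append_nil] at e4
  have I : Init F V wt.get K K0 ⟨r.2.1, Arr.cst [], Arr.cst 0, Arr.cst 0, bp, bp, mem⟩ r.2.2 := by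
    refine ⟨⟨fun x hx => top x ((hO.mem x).2 hx), fun x hx => (hw x hx).1, fun a y => ?_,
      fun a => ?_, fun a l y m e c => ?_, fun a => ?_, fun x hx => hb x ((hO.mem x).2 hx)⟩, rfl, rfl,
      fun x => by rw [← hO.mem]; exact P.cut x, P.nd,
      fun x hx => ⟨(hO.mem x).1 (P.sub x hx).1, (P.sub x hx).2⟩, hO.sum _ ▸ P.num⟩
    · simp [e4, hO.mem]
    · rw [e4, List.nodup_reverse]; exact hO.nd.filter _
    · dsimp only at e c
      rw [e4, List.reverse_eq_iff] at e
      have hy : y ∈ ord.filter fun x => bp.get x = a := by rw [e]; simp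
      rw [List.mem_filter] at hy
      have n : F.par.get y ≠ y := fun k => by simp [top y hy.1 k] at c
      have := hb y hy.1
      rw [if_neg (by simp [c])] at this
      exact List.mem_reverse.1 (cf.filter_up (A := m.reverse) (B := l.reverse) (by rw [e]; simp) n
        (by rw [← this]; exact hy.2))
    · have := P.big bp.get (fun x hx => ⟨fun c => by rw [hb x hx, if_pos ((P.cut x).2 ⟨hx, c⟩)],
        fun c => by rw [hb x hx, if_neg fun c' => c ((P.cut x).1 c').2]⟩) a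
      rw [wsm_filter, mul_comm] at this
      dsimp only
      rw [e4, List.map_reverse, List.sum_reverse]
      exact this.trans hK
  refine sp_bind.2 ((k _ _ (t1 + t2 + t3 + t4) I ?_).mono fun a t h => ?_)
  · rw [e2, List.length_reverse] at h3; omega
  · rw [sp_pure]; simpa only [add_assoc, add_zero] using h

end Crest.Agent.N325.Pc
end

-- ▼ part N325/Pc/Build
section

/-! # Row 325 (helper75): the construction of the pieces -/

set_option autoImplicit false
open Finset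

namespace Crest.Agent.N325.Pc

/-- **construction** -/
theorem sp_build {g : Gl} {F : Fo} {V : Finset ℕ} {D K K0 W De : ℕ} {wt : Arr ℕ} {ord : List ℕ}
    (hW : F.WF V D) (hO : Ord F V ord) (hw : ∀ x ∈ V, 1 ≤ wt.get x ∧ wt.get x ≤ W)
    (hc : ∀ x ∈ V, (V.filter fun y => F.par.get y = x ∧ y ≠ x).card ≤ De) (hK : W + De * K0 ≤ K)
    (hX : ∑ x ∈ V, wt.get x ≤ g.X) :
    Sp g (build F wt K0 ord) fun r t => Inv F V wt.get K r.2.toFinset r.1 ∧
      (∀ u, r.1.pth.get u = []) ∧ (∀ x, r.1.cut.get x = true → x ∈ V) ∧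
      K0 * r.2.length ≤ (D + 1) * ∑ x ∈ V, wt.get x ∧
      K0 * t ≤ K0 * (4 * V.card + 13) + (∑ x ∈ V, wt.get x) * ((D + 1) * (5 * K + 15)) := by
  refine sp_build_of hO hw hc hK hX fun s M t0 I h0 => ?_
  refine (sp_hard (M := M.toFinset) [] hW I.p I.e I.fin
    (fun x hx => (I.sub x (List.mem_toFinset.1 hx)).1)
    (fun x hx => by rw [I.mrk, List.mem_toFinset]; simp [hx])
    (fun x hx => .inl (List.mem_toFinset.1 hx)) fun x hx => (I.sub x hx).1).mono ?_
  rintro r t ⟨h1, h2, h3, -, -, h4, h5, -, h6, -, -, h7⟩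
  have := I.num
  refine ⟨?_, fun u => ?_, fun x hx => ?_, ?_, ?_⟩
  · rwa [Finset.union_eq_right.2 fun x hx => by
      rw [h1]; exact List.mem_toFinset.2 (List.mem_append_left _ (List.mem_toFinset.1 hx))] at h4
  · by_contra k
    exact h6 u k (by rw [I.pth]; rfl)
  · rw [h5, Bool.or_eq_true, decide_eq_true_eq] at hx
    exact hx.elim (fun k => ((I.mrk x).1 k).1) (h3 x)
  · calc K0 * r.2.1.length ≤ K0 * (M.length * (D + 1)) := Nat.mul_le_mul_left _ h2
      _ = (D + 1) * (K0 * M.length) := by ring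
      _ ≤ _ := Nat.mul_le_mul_left _ this
  · calc K0 * (t0 + t) ≤ K0 * (4 * V.card + 13 + M.length * ((D + 1) * (5 * K + 15))) :=
          Nat.mul_le_mul_left _ (by omega)
      _ = K0 * (4 * V.card + 13) + K0 * M.length * ((D + 1) * (5 * K + 15)) := by ring
      _ ≤ _ := Nat.add_le_add_left (Nat.mul_le_mul_right _ this) _

/-- the construction with unit weights on the lifted forest -/
theorem sp_build1 {g : Gl} {F : Fo} {D K K0 De : ℕ} (hW : F.WF F.ord.toFinset D)
    (hn : F.ord.Nodup) (hp : Lt.PL F.par.get F.ord)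
    (hc : ∀ y, (F.ord.filter fun x => F.par.get x = y ∧ x ≠ y).length ≤ De) (h0 : 0 < K0)
    (hK : 1 + De * K0 ≤ K) (hX : F.ord.length ≤ g.X) :
    Sp g (build F (Arr.cst 1) K0 F.ord) fun r t =>
      Inv F F.ord.toFinset (fun _ => 1) K r.2.toFinset r.1 ∧
      (∀ u, r.1.pth.get u = []) ∧ (∀ x, r.1.cut.get x = true → x ∈ F.ord) ∧
      K0 * r.2.length ≤ (D + 1) * F.ord.length ∧
      t ≤ F.ord.length * ((D + 1) * (5 * K + 15) + 4) + 13 := by
  have hO := ord_of_pl hn hp
  have e : ∑ x ∈ F.ord.toFinset, (Arr.cst 1 : Arr ℕ).get x = F.ord.length := by simp [hO.card]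
  refine (sp_build (W := 1) (De := De) hW hO (fun _ _ => ⟨le_rfl, le_rfl⟩) (fun x _ => ?_) hK
    (e ▸ hX)).mono fun r t ⟨h1, h2, h3, h4, h5⟩ =>
      ⟨h1, h2, fun x k => List.mem_toFinset.1 (h3 x k), e ▸ h4, ?_⟩
  · rw [← hO.countP, List.countP_eq_length_filter]; exact hc x
  · rw [e, ← hO.card] at h5
    refine Nat.le_of_mul_le_mul_left (h5.trans ?_) h0
    have := Nat.mul_le_mul_right (F.ord.length * ((D + 1) * (5 * K + 15))) h0
    calc _ ≤ K0 * (4 * F.ord.length + 13) + K0 * (F.ord.length * ((D + 1) * (5 * K + 15))) := by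
          omega
      _ = _ := by ring

end Crest.Agent.N325.Pc
end

-- ▼ part N325/Sg/Build
section

/-! # Row 325 (helper42): one stage of the oracle — the construction -/

set_option autoImplicit false
open Finset

namespace Crest.Agent.N325.Sg

open Tw Lt

variable {g : Gl} {K : ℕ} {c c' : Bd} {G : Gr} {A : Type} {lf : A → List (ℕ × Ed) → R LF}
  {bx : A → Arr ℕ → Ds.BI → R Ds.BO} {p : Pr A} {k : Ds.Cs} {Nx : ℕ → ℕ → Prop} {Gam : ℕ → ℕ}

/-- bound on the number of nodes -/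
def nN (P : Pm) (m : ℕ) : ℕ := 4 * m * (P.D + 1) * P.S

/-- time of the construction; `TL` = time of the lift, `L` = number of batch levels -/
def tB (P : Pm) (K : ℕ) (k : Ds.Cs) (m TL L : ℕ) : ℕ :=
  TL + m + nN P m * ((P.D + 3) * (5 * K + 15) + 4) + nN P m * (P.S + 2) +
    (k.Cb + 2 * k.LM + 20) * (m * P.S ^ 2 + 1) + (k.cH + 1) * ((P.D + 3) * nN P m + 1) + L +
    m * P.S ^ 2 * (cT K + 3) + 30

/-- numerical hypotheses of the construction -/
structure BH (g : Gl) (p : Pr A) (K : ℕ) (c : Bd) (k : Ds.Cs) (Nx : ℕ → ℕ → Prop)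
    (Gam : ℕ → ℕ) : Prop where
  K0 : 0 < p.K0
  hK : 1 + (p.P.s + 2) * p.K0 ≤ K
  D0 : K * p.P.S ≤ p.D0
  nx : Nx 0 p.P0
  D1 : p.D0 + p.D0 * Gam p.P0 ≤ p.D1
  pr : ((p.P0, p.D1) :: p.pr).IsChain fun y x => Nx y.1 x.1 ∧ y.1 ≤ x.1 ∧ y.2 + y.2 * Gam x.1 ≤ x.2
  pr' : ∀ x ∈ (p.P0, p.D1) :: p.pr, x.1 ≤ k.LM ∧ x.2 ≤ k.DD
  gb : (2 * p.P.Hb + 1) * c.gb ≤ g.X
  lb : c.lb + 2 * p.P.Hb ≤ g.X
  nN : nN p.P c.m ≤ g.X

theorem foldl_edges (f : ℕ → Ed) (l : List (ℕ × Ed)) (h : ∀ x ∈ l, f x.1 = x.2)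
    (t : Arr Ed × Arr Bool) (e : ℕ) :
    (l.foldl (fun (t : Arr Ed × Arr Bool) x => (t.1.set x.1 x.2, t.2.set x.1 true)) t).1.get e
        = (if e ∈ l.map Prod.fst then f e else t.1.get e) ∧
      (l.foldl (fun (t : Arr Ed × Arr Bool) x => (t.1.set x.1 x.2, t.2.set x.1 true)) t).2.get e
        = if e ∈ l.map Prod.fst then true else t.2.get e := by
  induction l generalizing t with
  | nil => simp
  | cons x l ih =>
    have k := ih (fun y hy => h y (List.mem_cons_of_mem _ hy)) (t.1.set x.1 x.2, t.2.set x.1 true)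
    rw [List.foldl_cons, k.1, k.2, List.map_cons]
    simp only [Arr.get_set, List.mem_cons]
    by_cases a : e = x.1
    · subst a; simp [h x List.mem_cons_self]
    · simp only [a, false_or, if_false, and_self]

theorem enum_len {l : List (ℕ × Ed)} (hG : G.Ok c) (hl : Enum G l) : l.length ≤ c.m := by
  rw [← List.length_map (f := Prod.fst), ← List.toFinset_card_of_nodup hl.1]
  exact (card_le_card fun e he => hG.1 ((hl.2.1 e).2 (List.mem_toFinset.1 he))).trans hG.2.1

/-- **the field `build` of the specification of the stage** -/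
theorem sp_build (h : UH g p K c c' k) (h' : BH g p K c k Nx Gam)
    (hb : ∀ G0 X, FxOk p.P c G0 X → Ds.BoxSpec g (bx p.a X.cls) X.cls.get k Nx Gam) {TL : ℕ}
    {l : List (ℕ × Ed)} (wk : ℕ → Wk) (hG : G.Ok c) (hl : Enum G l)
    (hlf : Sp g (lf p.a l) fun T t => T.Ok G p.P c.m c.nb ∧ t ≤ TL) :
    Sp g (build lf bx p l) fun r t => Oks K c' G Gr.emp r.2 ∧
      Inv p c K k Nx Gam p.pr.length r.1 G (apps Gr.emp r.2) (wks wk r.2) 0 ∧
      p.K0 * (r.2.length + rcS k r.1) ≤ 38 * k.cH * ((p.P.D + 3) * nN p.P c.m + p.K0) ∧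
      t + PhiS K k r.1 ≤ tB p.P K k c.m TL p.pr.length := by
  have hm := enum_len hG hl
  unfold build
  refine (sp_foldP _ l _).bind ?_
  rintro ⟨ed, og⟩ t0 ⟨e0, ht0⟩
  have hed : ∀ e ∈ G.E, ed.get e = G.ed e := fun e he => by
    have := (foldl_edges G.ed l hl.2.2 (Arr.cst ⟨0, 0, 0, 0⟩, Arr.cst false) e).1
    rwa [← e0, if_pos ((hl.2.1 e).1 he)] at this
  have hog : ∀ e, og.get e = true ↔ e ∈ G.E := fun e => by
    have := (foldl_edges G.ed l hl.2.2 (Arr.cst ⟨0, 0, 0, 0⟩, Arr.cst false) e).2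
    rw [← e0] at this
    dsimp only at this
    rw [this, hl.2.1 e]
    split_ifs with a <;> simp [a]
  refine hlf.bind ?_
  rintro T t1 ⟨hT, ht1⟩
  have n2 := h.B.n2
  have nb := h.nb
  rw [h.B.hQ] at n2
  refine (sp_fxR hG hT hed (by omega) h'.gb h'.lb).bind ?_
  rintro X t2 ⟨hX, rfl, ht2⟩
  have hlen : X.T.ord.length ≤ nN p.P c.m := hT.len
  have hO : X.nO ≤ c.m * p.P.S ^ 2 := hX.nO ▸ hT.olen
  rw [← hX.nO] at ht2
  refine (Pc.sp_build1 (Pc.wf_of_ok hT fun e he => (hG.2.2 e he).2.2.2.1) hT.nd hT.pl hT.kids h'.K0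
    h'.hK (hlen.trans h'.nN)).bind ?_
  rintro ⟨pc, M⟩ t3 ⟨hI, hp, -, hM, ht3⟩
  dsimp only at hI hp hM ⊢
  rw [sp_bind, sp_nat]
  refine ⟨h.nw (Nat.zero_le _), (sp_reVx hX _ _ _).bind fun vx t4 ⟨hv0, ht4⟩ => ?_⟩
  have hob : ∀ o < X.nO, og.get (X.ob.get o).1 = true := fun o ho =>
    (hog _).2 (hT.obj _ (hX.ob o ho)).1
  have hv : VxOk p.P X pc.rt vx := fun o => by
    rw [hv0 o]
    by_cases a : o / 2 < X.nO
    · have := hT.obj _ (hX.ob _ a)
      rw [if_pos a, if_pos ⟨a, by unfold nd; split_ifs; exacts [this.2.1, this.2.2.1]⟩]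
    · rw [if_neg a, if_neg fun j => a j.1]; rfl
  refine (sp_rangeL_zero _).bind ?_
  rintro _ t5 ⟨rfl, ht5⟩
  have h3 := h.nO hX
  refine (Ds.sp_build (gt := X.gt.get) (la := X.la.get) (th := p.th1) (hb G X hX)
    (fun o => by rw [hX.cls, hX.cls, Bf.rv_div]) List.nodup_range
    (fun e he => by have := List.mem_range.1 he; omega)
    (fun v hv => lt_of_lt_of_le
      (hT.idb v (List.mem_toFinset.1 (hI.sub (List.mem_toFinset.2 hv)))) h.nV)
    (fun e he j => by simpa using nonloop hX hI hv (List.mem_range.1 he) j)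
    (fun v => (deg_le hX ⟨_, hI⟩ hv v).trans h'.D0) h'.nx h'.D1 h'.pr h'.pr').bind ?_
  rintro ⟨ds, u⟩ t6 ⟨d1, d2, d3, d4, d5, d6, d7⟩
  simp only [List.mem_range, List.length_range] at d1 d2 d3 d4 d5 d6 d7
  have hu : ∀ o ∈ u, o < X.nO := fun o ho => (d2 o).1 ((d4 o).2 ho).1
  have hul : u.length ≤ X.nO := by
    simpa using (d3.subperm fun o ho => List.mem_range.2 (hu o ho)).length_le
  refine (sp_pubs (og := og) (w := ((pc, []), Arr.cst false, [])) hX h.fu
    (fun o ho => ⟨hu o ho, hob o (hu o ho)⟩) h3 ⟨_, hI⟩ fun o j => by simp at j).bind ?_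
  rintro w t7 ⟨w1, w2, ⟨n, w3, w4, w5⟩, -, w6, -, w7, w8, ht7⟩
  simp only [List.append_nil, Arr.get_cst, Bool.false_eq_true, false_or] at w3 w5 w6 w7 w8
  have hd : DnOk p.P p.Q K X G G ⟨ed, og, w.1.1, vx, ds, w.2.1, Arr.cst none, Arr.cst false⟩ :=
    ⟨w1, hed, fun e j => ⟨(hog e).1 j, (hog e).1 j, rfl⟩,
      fun x hx _ a ha => (hog _).2 (hT.real x hx a ha).1, by rw [← w6] at hv; exact hv, w2,
      fun q ab j => by simp at j, fun e j1 j2 => by rw [(hog e).2 j1] at j2; cases j2⟩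
  refine (sp_fin (d := ⟨ed, og, pc, vx, ds, Arr.cst false, Arr.cst none, Arr.cst false⟩)
    (T0 := fun _ => none) h.B hX hG hd (agr_emp wk) (fun _ => rfl) (fun i a b => ?_)
    (fun v hv => List.mem_toFinset.1 (w5.ids v (w3 ▸ hv))) h.nb h.gb).bind ?_
  · unfold tb
    split_ifs with e0 e1
    · exact (w5.seg (w3 ▸ b e0)).trans (Pc.seg_eq_none (hp _))
    · refine if_neg fun j => a ?_
      rw [w8, List.mem_reverse]
      exact List.mem_map.2 ⟨i / 3, (w7 _).1 j, by omega⟩
    · rfl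
  rintro ⟨d2', l2⟩ t8 ⟨e, k1, k2, k3, k4, k5⟩
  dsimp only at e k1 k2 k3 k4
  have e1 : d2'.ds = ds := by rw [e]
  have hw : w.1.2.length + w.2.2.length ≤ 19 * u.length := by
    rw [w3, w8, List.length_reverse, List.length_map]; omega
  refine ⟨k1, inv_iff.2 ⟨rfl, hG, G, hX, ?_, ?_, ?_, k2, k3⟩, ?_, ?_⟩
  · dsimp only; rw [e]; exact ⟨hd.pc, hd.ed, hd.og, hd.liv, hd.vx, hd.pub, hd.pt, hd.ins⟩
  · dsimp only; rw [e]
    exact ⟨fun o j => ⟨(d2 o).1 j, hob o ((d2 o).1 j)⟩, fun o j _ => Or.inl ((d2 o).2 j),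
      fun o j => (w7 o).2 ((d4 o).1 j)⟩
  · dsimp only; rw [e]; exact ⟨0, le_rfl, d1⟩
  · unfold rcS
    dsimp only
    rw [e1, d6]
    have a1 : l2.length ≤ 38 * (k.cH * (M.length + 1)) := by omega
    have a2 : p.K0 * M.length ≤ (p.P.D + 3) * nN p.P c.m :=
      hM.trans (Nat.mul_le_mul_left _ hlen)
    calc p.K0 * (l2.length + 38 * 0) ≤ p.K0 * (38 * (k.cH * (M.length + 1))) :=
          Nat.mul_le_mul_left _ (by omega)
      _ = 38 * k.cH * (p.K0 * M.length + p.K0) := by ring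
      _ ≤ _ := Nat.mul_le_mul_left _ (by omega)
  · unfold PhiS tB cT
    dsimp only
    rw [e1, d6]
    have a2 : M.length ≤ (p.P.D + 3) * nN p.P c.m :=
      ((Nat.le_mul_of_pos_left _ h'.K0).trans hM).trans (Nat.mul_le_mul_left _ hlen)
    have a3 := Nat.mul_le_mul_right ((p.P.D + 2 + 1) * (5 * K + 15) + 4) hlen
    have a4 := Nat.mul_le_mul_right (p.P.S + 2) hlen
    have a5 := Nat.mul_le_mul_left (k.Cb + 2 * k.LM + 20) (Nat.add_le_add_right hO 1)
    have a6 := Nat.mul_le_mul_left (k.cH + 1) (Nat.add_le_add_right a2 1)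
    have a7 := Nat.mul_le_mul_left (3 * K + 7) hw
    have a8 := Nat.mul_le_mul_right (90 * K + 151 + 19 * (3 * K + 7)) (hul.trans hO)
    rw [show p.P.D + 2 + 1 = p.P.D + 3 from rfl] at a3 ht3
    nlinarith

end Crest.Agent.N325.Sg
end

-- ▼ part N325/Ds/Probe
section

/-!
# Row 325 (helper13): the batch spanner — the test of the candidates and the covering estimate
-/

set_option autoImplicit false

namespace Crest.Agent.N325.Ds

open Bf

variable {g : Gl} {cls : ℕ → ℕ} {k : Cs} {Nx : ℕ → ℕ → Prop} {Gam : ℕ → ℕ}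
  {gt : ℕ → ℤ} {la : ℕ → ℕ} {th L n : ℕ} {vx : ℕ → ℕ} {s : St}

theorem wgt_cons (gt : ℕ → ℤ) (o : ℕ) (w : List ℕ) : wgt gt (o :: w) = sgt gt o + wgt gt w := by
  simp [wgt]

theorem natAbs_sgt (gt : ℕ → ℤ) (o : ℕ) : (sgt gt o).natAbs = (gt (o / 2)).natAbs := by
  unfold sgt; split_ifs <;> simp

theorem sp_wgtR (gt : Arr ℤ) {w : List ℕ} {G : ℕ} (hG : ∀ o ∈ w, (gt.get (o / 2)).natAbs ≤ G)
    (hX : w.length * G ≤ g.X) :
    Sp g (wgtR gt w) fun z t => z = wgt gt.get w ∧ t ≤ w.length + 1 := by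
  refine (sp_foldL' (fun l (z : ℤ) => (∀ o ∈ l, o ∈ w) ∧ z + wgt gt.get l = wgt gt.get w ∧
      z.natAbs + l.length * G ≤ w.length * G) (fun _ => 0) (fun o l z ⟨a, b, c⟩ => ?_)
    ⟨fun _ m => m, by simp, by simp⟩).mono fun z t ⟨⟨_, b, _⟩, c⟩ =>
      ⟨by simpa [wgt] using b, by simpa using c⟩
  have h1 := hG o (a o List.mem_cons_self)
  have h2 := Int.natAbs_add_le z (sgt gt.get o)
  rw [natAbs_sgt] at h2
  rw [List.length_cons, add_mul] at c
  exact sp_int.2 ⟨by omega, ⟨fun o' m => a o' (List.mem_cons_of_mem _ m),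
    by rw [← b, wgt_cons]; ring, by omega⟩, le_rfl⟩

theorem Inv.cur_mem (hI : Inv k Nx Gam cls gt la th L vx s n) : s.cur ∈ s.ls := by
  have := hI.len
  unfold St.cur
  cases h : s.ls with
  | nil => rw [h] at this; simp at this
  | cons x l => simp

/-- the walk of a living unpublished item is an intact walk through published items -/
theorem Inv.walk (hI : Inv k Nx Gam cls gt la th L vx s n) {e : ℕ} (he : s.al.get e = true)
    (hp : s.cur.sn.h.get e = false) :
    Wk vx (vx (2 * e)) (s.cur.sn.w.get e) (vx (2 * e + 1)) ∧ (s.cur.sn.w.get e).length ≤ k.LM ∧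
      ∀ o ∈ s.cur.sn.w.get e, s.pub (o / 2) ∧ cls o = cls (2 * e) := by
  have h := hI.ok _ hI.cur_mem
  obtain ⟨vx0, hc, -, hw⟩ := h.sn
  rw [hI.cur] at hc hw
  have e0 : vx = vx0 := funext fun o => by
    by_contra hne
    exact absurd (hc.2 o hne).1 List.not_mem_nil
  subst e0
  have W := hw e he hp
  refine ⟨W.wk, W.len.trans h.lm, fun o m => ⟨⟨?_, (W.pub o m).1⟩, (W.pub o m).2.1⟩⟩
  by_contra ha
  exact absurd ((W.pub o m).2.2 (by simpa using ha)).1 List.not_mem_nil

theorem chain_h {al : ℕ → Bool} {x : Lv} {l : List Lv}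
    (h : (x :: l).IsChain (Lk Nx Gam vx al)) {e : ℕ} :
    ∀ y ∈ x :: l, y.sn.h.get e = true → x.sn.h.get e = true := by
  induction l generalizing x with
  | nil => intro y m a; rw [List.mem_singleton.1 m] at a; exact a
  | cons z l ih =>
    intro y m a
    rcases List.mem_cons.1 m with rfl | m
    · exact a
    · rw [List.isChain_cons_cons] at h
      exact (h.1.h e).2 (Or.inl (ih h.2 y m a))

theorem Inv.h_mono (hI : Inv k Nx Gam cls gt la th L vx s n) {e : ℕ} {y : Lv} (hy : y ∈ s.ls)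
    (a : y.sn.h.get e = true) : s.cur.sn.h.get e = true := by
  have h := hI.lk
  unfold St.cur
  cases e' : s.ls with
  | nil => rw [e'] at hy; cases hy
  | cons x l => rw [e'] at h hy; exact chain_h h y hy a

/-- an unpublished item leaves the structure -/
theorem Inv.kill (hI : Inv k Nx Gam cls gt la th L vx s n) {e : ℕ}
    (hp : s.cur.sn.h.get e = false) {bad : List ℕ}
    (hb : ∀ f, f ≠ e → s.al.get f = true → s.cur.sn.h.get f = false → f ∉ bad →
      Cov gt la th (s.cur.sn.w.get f) f) :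
    Inv k Nx Gam cls gt la th L vx ⟨s.al.set e false, s.ls, bad⟩ n := by
  have sub : ∀ f, (s.al.set e false).get f = true → f ≠ e ∧ s.al.get f = true := fun f h => by
    rw [Arr.get_set] at h
    split_ifs at h with c
    exact ⟨c, h⟩
  refine ⟨hI.len, fun y m => ?_, hI.lk.imp fun x y h => ?_, hI.cur, hI.val,
    fun f a b c => hb f (sub f a).1 (sub f a).2 b c⟩
  · have h := hI.ok y m
    obtain ⟨vx0, hc, hd, hw⟩ := h.sn
    refine ⟨⟨vx0, hc, hd, fun f a b => ?_⟩, h.lm, h.dd, h.cnt, h.lt⟩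
    have W := hw f (sub f a).2 b
    refine ⟨W.wk, W.len, fun o mo => ⟨(W.pub o mo).1, (W.pub o mo).2.1, fun c => ?_⟩, W.ix⟩
    have ne : o / 2 ≠ e := fun q => by
      have := hI.h_mono m (W.pub o mo).1
      rw [q, hp] at this
      cases this
    exact (W.pub o mo).2.2 (by rw [← Arr.get_set_ne s.al ne false]; exact c)
  · exact ⟨h.sub, h.h, h.dj, h.nd, fun f a => h.un f (sub f a).2, h.nx, h.le, h.dd⟩

theorem sp_scan {gt : Arr ℤ} {la : Arr ℕ} {G : ℕ}
    (hI : Inv k Nx Gam cls gt.get la.get th L vx s n)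
    (hG : ∀ e, s.al.get e = true → (gt.get e).natAbs ≤ G) (hX : k.LM * G ≤ g.X) (l : List ℕ) :
    Sp g (scan gt la th s.al s.cur.sn l) fun r t =>
      t + (k.LM + 4) * r.1.length ≤ (k.LM + 4) * l.length + 1 ∧ (r.2 = none → r.1 = []) ∧
      (∀ f ∈ l, f ∉ r.1 → r.2 ≠ some f → s.al.get f = true → s.cur.sn.h.get f = false →
        Cov gt.get la.get th (s.cur.sn.w.get f) f) ∧
      ∀ e, r.2 = some e → s.al.get e = true ∧ s.cur.sn.h.get e = false ∧
        ¬Cov gt.get la.get th (s.cur.sn.w.get e) e := by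
  induction l with
  | nil => exact ⟨Nat.zero_le _, by simp, fun _ => rfl, fun _ m => (nomatch m), fun _ h => (nomatch h)⟩
  | cons e l ih =>
    have T : Sp g (tst gt la th s.al s.cur.sn e) fun c t => t ≤ k.LM + 1 ∧
        (c = true ↔ s.al.get e = true ∧ s.cur.sn.h.get e = false ∧
          ¬Cov gt.get la.get th (s.cur.sn.w.get e) e) := by
      refine sp_ite.2 ⟨fun h => ?_, fun h => ⟨Nat.zero_le _, by simpa using fun a b => absurd ⟨a, b⟩ h⟩⟩
      obtain ⟨-, a, b⟩ := hI.walk h.1 h.2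
      refine (sp_wgtR gt (fun o m => hG _ (b o m).1.1)
        ((Nat.mul_le_mul_right _ a).trans hX)).bind fun z t ⟨c, d⟩ => ⟨by omega, ?_⟩
      simp [Cov, c, h.1, h.2]
    refine ⟨Nat.zero_le _, T.bind fun c t ⟨a, b⟩ => sp_ite.2 ⟨fun h => ⟨?_, fun q => (nomatch q),
      fun f m m' q => ?_, fun f q => ?_⟩, fun h => ih.mono fun r u ⟨c1, c2, c3, c4⟩ =>
        ⟨?_, c2, fun f m m' q a1 a2 => ?_, c4⟩⟩⟩
    · simp only [List.length_cons, mul_add]; omega
    · rcases List.mem_cons.1 m with rfl | m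
      · exact absurd rfl q
      · exact absurd m m'
    · cases q; exact b.1 h
    · simp only [List.length_cons, mul_add]; omega
    · rcases List.mem_cons.1 m with rfl | m
      · by_contra hc
        exact h (b.2 ⟨a1, a2, hc⟩)
      · exact c3 f m m' q a1 a2

theorem sp_probe {gt : Arr ℤ} {la : Arr ℕ} {G : ℕ}
    (hI : Inv k Nx Gam cls gt.get la.get th L vx s n)
    (hG : ∀ e, s.al.get e = true → (gt.get e).natAbs ≤ G) (hX : k.LM * G ≤ g.X) :
    Sp g (probe gt la th s) fun r t =>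
      Inv k Nx Gam cls gt.get la.get th L vx r.1 n ∧ (∀ e, r.1.pub e ↔ s.pub e) ∧
      k.rc r.1 = k.rc s ∧ t + k.Phi r.1 ≤ k.Phi s + 1 ∧
      (r.2 = none → r.1.al = s.al ∧ r.1.bad = []) ∧
      ∀ e, r.2 = some e → r.1.al = s.al.set e false ∧ s.al.get e = true ∧ ¬s.pub e ∧
        ¬Cov gt.get la.get th (s.cur.sn.w.get e) e := by
  refine (sp_scan hI hG hX s.bad).bind fun x t ⟨c1, c2, c3, c4⟩ => ?_
  have hc : ∀ f, x.2 ≠ some f → s.al.get f = true → s.cur.sn.h.get f = false → f ∉ x.1 →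
      Cov gt.get la.get th (s.cur.sn.w.get f) f := fun f q a b c => by
    by_cases m : f ∈ s.bad
    · exact c3 f m c q a b
    · exact hI.cov f a b m
  have hP : ∀ al, t + 0 + k.Phi ⟨al, s.ls, x.1⟩ ≤ k.Phi s + 1 := fun al => by
    simp only [Cs.Phi]; omega
  obtain ⟨l, _ | e⟩ := x
  · exact ⟨⟨hI.len, hI.ok, hI.lk, hI.cur, hI.val, fun f => hc f (by simp)⟩, fun _ => Iff.rfl, rfl,
      hP _, fun _ => ⟨rfl, c2 rfl⟩, fun _ q => (nomatch q)⟩
  · obtain ⟨a, b, c⟩ := c4 e rfl
    refine ⟨hI.kill b fun f ne => hc f (by simpa using ne.symm), fun f => ?_, rfl, hP _,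
      fun q => (nomatch q), fun f q => ?_⟩
    · show (s.al.set e false).get f = true ∧ s.cur.sn.h.get f = true ↔ s.pub f
      rw [Arr.get_set]
      split_ifs with h
      · subst h; simp [St.pub, b]
      · rfl
    · cases q
      exact ⟨rfl, a, fun h => by simp [St.pub, b] at h, c⟩

theorem wk_tel {Z : ℕ → ℝ} {B : ℝ} {w : List ℕ} {u v : ℕ} (hw : Wk vx u w v)
    (h : ∀ o ∈ w, |(gt (o / 2) : ℝ) - (Z (vx (2 * (o / 2) + 1)) - Z (vx (2 * (o / 2))))| ≤ B) :
    |(wgt gt w : ℝ) - (Z v - Z u)| ≤ w.length * B := by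
  induction w generalizing u with
  | nil => rw [wk_nil.1 hw]; simp [wgt]
  | cons o w ih =>
    have h1 := ih hw.2 fun o' m => h o' (List.mem_cons_of_mem _ m)
    have h2 : |(sgt gt o : ℝ) - (Z (vx (rv o)) - Z (vx o))| ≤ B := by
      have := h o List.mem_cons_self
      unfold sgt rv
      split_ifs with c
      · rwa [show 2 * (o / 2) = o by omega] at this
      · rw [show 2 * (o / 2) + 1 = o by omega, show 2 * (o / 2) = o - 1 by omega] at this
        rw [← abs_neg]
        push_cast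
        convert this using 2
        ring
    rw [wgt_cons, ← hw.1]
    push_cast [List.length_cons]
    calc _ = |((sgt gt o : ℝ) - (Z (vx (rv o)) - Z (vx o))) +
          ((wgt gt w : ℝ) - (Z v - Z (vx (rv o))))| := by congr 1; ring
      _ ≤ _ := (abs_add_le _ _).trans (by linarith)

theorem Inv.close (hI : Inv k Nx Gam cls gt la th L vx s n) (hcls : ∀ o, cls (rv o) = cls o)
    (hla : ∀ e f, s.al.get e = true → s.al.get f = true → cls (2 * f) = cls (2 * e) →
      la f ≤ 2 * la e) {Z : ℕ → ℝ} {a : ℝ} (ha : 0 ≤ a)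
    (hZ : ∀ f, s.pub f → |(gt f : ℝ) - (Z (vx (2 * f + 1)) - Z (vx (2 * f)))| ≤ a * la f) {e : ℕ}
    (he : s.al.get e = true) (hp : ¬s.pub e) :
    (e ∉ s.bad → |(gt e : ℝ) - (Z (vx (2 * e + 1)) - Z (vx (2 * e)))| ≤
      (th + 2 * a * k.LM) * la e) ∧
    (¬Cov gt la th (s.cur.sn.w.get e) e →
      (th - 2 * a * k.LM) * la e < |(gt e : ℝ) - (Z (vx (2 * e + 1)) - Z (vx (2 * e)))|) := by
  have hp' : s.cur.sn.h.get e = false := by simpa [St.pub, he] using hp
  obtain ⟨w1, w2, w3⟩ := hI.walk he hp'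
  have hB : 0 ≤ a * (2 * la e) := by positivity
  have h1 := wk_tel (gt := gt) (Z := Z) (B := a * (2 * la e)) w1 fun o m => by
    refine (hZ _ (w3 o m).1).trans (mul_le_mul_of_nonneg_left ?_ ha)
    have c : cls (2 * (o / 2)) = cls o := by
      rcases eq_or_rv (show 2 * (o / 2) / 2 = o / 2 by omega) with q | q
      · rw [q]
      · rw [q, hcls]
    exact_mod_cast hla e (o / 2) he (w3 o m).1.1 (c.trans (w3 o m).2)
  have h2 : ((s.cur.sn.w.get e).length : ℝ) * (a * (2 * la e)) ≤ k.LM * (a * (2 * la e)) :=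
    mul_le_mul_of_nonneg_right (by exact_mod_cast w2) hB
  have h3 : (((gt e - wgt gt (s.cur.sn.w.get e)).natAbs : ℕ) : ℝ) =
      |(gt e : ℝ) - wgt gt (s.cur.sn.w.get e)| := by
    rw [Nat.cast_natAbs]; push_cast; rfl
  have h4 := abs_le.1 (h1.trans h2)
  refine ⟨fun m => ?_, fun c => ?_⟩
  · have c : (((gt e - wgt gt (s.cur.sn.w.get e)).natAbs : ℕ) : ℝ) ≤ (th * la e : ℕ) :=
      Nat.cast_le.2 (hI.cov e he hp' m)
    rw [h3] at c
    push_cast at c
    have := abs_le.1 c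
    exact abs_le.2 ⟨by linarith, by linarith⟩
  · have c : ((th * la e : ℕ) : ℝ) < ((gt e - wgt gt (s.cur.sn.w.get e)).natAbs : ℕ) :=
      Nat.cast_lt.2 (not_le.1 c)
    rw [h3] at c
    push_cast at c
    rcases lt_abs.1 c with c | c
    · exact lt_abs.2 (Or.inl (by linarith))
    · exact lt_abs.2 (Or.inr (by linarith))

end Crest.Agent.N325.Ds
end

-- ▼ part N325/Sg/Flat
section

/-! # Row 325 (helper20): flatness of the next graph gives flatness of the graph -/

set_option autoImplicit false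
open Finset

namespace Crest.Agent.N325.Sg

open Tw Lt

variable {P : Pm} {Q K : ℕ} {c : Bd} {G0 G H : Gr} {wk : ℕ → Wk} {X : Fx} {d : Dn}

theorem tb0 (u : ℕ) : tb Q X d (3 * u) = Pc.seg X.T d.pc u := by
  unfold tb; rw [if_pos (by omega), show 3 * u / 3 = u by omega]
theorem tb1 (o : ℕ) : tb Q X d (3 * o + 1) = objT X d.ed d.pub o := by
  unfold tb; rw [if_neg (by omega), if_pos (by omega), show (3 * o + 1) / 3 = o by omega]
theorem tb2 (q : ℕ) : tb Q X d (3 * q + 2) = ptT Q d.ed d.pt q := by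
  unfold tb; rw [if_neg (by omega), if_neg (by omega), show (3 * q + 2) / 3 = q by omega]

theorem nd0 (ob : ℕ → Ob) (o : ℕ) : nd ob (2 * o) = (ob o).2.1 := by
  unfold nd; rw [if_pos (by omega), show 2 * o / 2 = o by omega]
theorem nd1 (ob : ℕ → Ob) (o : ℕ) : nd ob (2 * o + 1) = (ob o).2.2.1 := by
  unfold nd; rw [if_neg (by omega), show (2 * o + 1) / 2 = o by omega]

theorem VxOk.tl {rt vx : Arr ℕ} (h : VxOk P X rt vx) {o : ℕ} (ho : o < X.nO) :
    vx.get (2 * o) = rt.get (X.ob.get o).2.1 := by rw [h, if_pos (by omega), nd0]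
theorem VxOk.hd {rt vx : Arr ℕ} (h : VxOk P X rt vx) {o : ℕ} (ho : o < X.nO) :
    vx.get (2 * o + 1) = rt.get (X.ob.get o).2.2.1 := by rw [h, if_pos (by omega), nd1]

theorem FxOk.clsrv (hX : FxOk P c G0 X) (o : ℕ) : X.cls.get (Bf.rv o) = X.cls.get o := by
  rw [hX.cls, hX.cls, Bf.rv_div]

theorem size_two {a b : ℕ} (h : a.size = b.size) : a ≤ 2 * b := by
  have h1 := Nat.lt_size_self a
  rcases Nat.eq_zero_or_pos b.size with e | e
  · rw [h, e] at h1; omega
  · have h2 : 2 ^ (b.size - 1) ≤ b := Nat.lt_size.1 (by omega)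
    have h3 : 2 ^ b.size = 2 * 2 ^ (b.size - 1) := by
      rw [← pow_succ']; congr 1; omega
    rw [h] at h1; omega

theorem FxOk.latwo (hX : FxOk P c G0 X) {e f : ℕ} (he : e < X.nO) (hf : f < X.nO)
    (h : X.cls.get (2 * f) = X.cls.get (2 * e)) : X.la.get f ≤ 2 * X.la.get e := by
  rw [hX.cls, hX.cls, if_pos (by omega), if_pos (by omega), show 2 * f / 2 = f by omega,
    show 2 * e / 2 = e by omega] at h
  exact size_two h

/-- the potential of a piece -/
noncomputable def Zr (X : Fx) (z : ℕ → ℝ) (r : ℕ) : ℝ := z (X.T.nm.get r) - X.T.G.get r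

/-- `z` is a potential for the table -/
def Pot (Q : ℕ) (X : Fx) (d : Dn) (z : ℕ → ℝ) (θ : ℝ) : Prop :=
  ∀ p x, tb Q X d p = some x → |(x.1.g : ℝ) - (z x.1.b - z x.1.a)| ≤ θ * x.1.l

theorem abs3 {a b e A B E : ℝ} (ha : |a| ≤ A) (hb : |b| ≤ B) (he : |e| ≤ E) :
    |a - b + e| ≤ A + B + E := by
  rw [abs_le] at *; constructor <;> linarith [ha.1, ha.2, hb.1, hb.2, he.1, he.2]

/-- published objects are flat for the potentials of the pieces -/
theorem pub_flat (hX : FxOk P c G0 X) (hd : DnOk P Q K X G0 G d) {z : ℕ → ℝ} {θ : ℝ} (h0 : 0 ≤ θ)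
    (hz : Pot Q X d z θ) {o : ℕ} (ho : d.pub.get o = true) :
    |(X.gt.get o : ℝ) - (Zr X z (d.vx.get (2 * o + 1)) - Zr X z (d.vx.get (2 * o)))| ≤
      θ * X.la.get o := by
  obtain ⟨h1, h2, vu, vv, vm⟩ := hd.pub o ho
  obtain ⟨M, I⟩ := hd.pc
  have hW := hX.wf
  obtain ⟨-, ou, ov, -, -, om, au, av, lu, lv, hc⟩ := hX.ok.obj _ (hX.ob o h1)
  have hs : ∀ u e w, Pc.seg X.T d.pc u = some (e, w) → |(e.g : ℝ) - (z e.b - z e.a)| ≤ θ * e.l :=
    fun u e w h => hz (3 * u) (e, w) (by rw [tb0, h])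
  have he := hz (3 * o + 1) _ (by rw [tb1, objT, if_pos ho])
  obtain ⟨-, g1, g2⟩ := hd.og _ h2
  simp only [cpE, hd.ed _ g1, g2] at he
  rw [hd.vx.tl h1, hd.vx.hd h1, hX.gt o h1, hX.la o h1]
  set u := (X.ob.get o).2.1
  set v := (X.ob.get o).2.2.1
  set m := (X.ob.get o).2.2.2
  have uV := List.mem_toFinset.2 ou
  have vV := List.mem_toFinset.2 ov
  have au' := Pc.anc_iff.2 au
  have av' := Pc.anc_iff.2 av
  have hl : ((X.T.lam G0.ed (X.ob.get o) : ℕ) : ℝ) = (G0.ed (X.ob.get o).1).l +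
      ((X.T.H.get v : ℝ) - X.T.H.get m) + ((X.T.H.get u : ℝ) - X.T.H.get m) := by
    change (((G0.ed (X.ob.get o).1).l + X.T.H.get u + X.T.H.get v - 2 * X.T.H.get m : ℕ) : ℝ) = _
    rw [Nat.cast_sub (by omega)]; push_cast; ring
  rw [hl, mul_add, mul_add]
  by_cases cm : d.pc.cut.get m = true
  · have a1 := I.flat_rt hW hs uV vu
    have a2 := I.flat_rt hW hs vV vv
    obtain ⟨_, b1⟩ := I.p.rt_below hW uV au' cm
    obtain ⟨_, b2⟩ := I.p.rt_below hW vV av' cm
    have c1 : (X.T.H.get m : ℝ) ≤ X.T.H.get (d.pc.rt.get u) := by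
      exact_mod_cast (b1.lp hW (I.p.rt_mem hW uV)).1
    have c2 : (X.T.H.get m : ℝ) ≤ X.T.H.get (d.pc.rt.get v) := by
      exact_mod_cast (b2.lp hW (I.p.rt_mem hW vV)).1
    have := abs3 he (a2.trans (mul_le_mul_of_nonneg_left (sub_le_sub_left c2 _) h0))
      (a1.trans (mul_le_mul_of_nonneg_left (sub_le_sub_left c1 _) h0))
    convert this using 2
    unfold Zr; push_cast; ring
  · have key : ∀ x ∈ X.T.ord.toFinset, Pc.Fo.Anc X.T x m → (x = u ∨ x = v) →
        d.pc.rt.get m = d.pc.rt.get x := fun x hx a e => by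
      refine (I.p.same_or hW hx a).resolve_right ?_
      rintro ⟨y, yV, j1, j2, j3, j4⟩
      have yM := ((I.mrk y yV).1 j3).resolve_right j4
      have j5 : Anc X.T.par.get u y ∨ Anc X.T.par.get v y := by
        rcases e with e | e <;> rw [← e] <;> simp [Pc.anc_iff.1 j1]
      have := I.cl y yM m (hc y j5 (Pc.anc_iff.1 j2))
      exact cm ((I.mrk m (List.mem_toFinset.2 om)).2 (Or.inl this))
    have e1 := key u uV au' (Or.inl rfl)
    have e2 := key v vV av' (Or.inr rfl)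
    have := abs3 he (I.flat hW hs vV vv vm av' e2) (I.flat hW hs uV vu vm au' e1)
    convert this using 2
    rw [← e1, ← e2]; push_cast; ring

variable {k : Ds.Cs} {Nx : ℕ → ℕ → Prop} {Gam : ℕ → ℕ} {L n th1 : ℕ}

theorem one_le_al (hP : P.Ok) : 1 ≤ P.al := by
  unfold Pm.al
  have := hP.s1
  exact Nat.mul_pos (Nat.mul_pos (by omega) (by omega)) (by omega)

/-- **flatness** -/
theorem flat_of (hP : P.Ok) (hX : FxOk P c G0 X) (hd : DnOk P Q K X G0 G d)
    (hs : DsOk X d.og d.ds d.pub)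
    (hI : Ds.Inv k Nx Gam X.cls.get X.gt.get X.la.get th1 L d.vx.get d.ds n) (hb : d.ds.bad = [])
    (hA : Agr H wk (tb Q X d)) {th th' : ℕ} (hF : Flat H th')
    (ht : (th1 + (2 * k.LM + 1) * th') * P.al ≤ th) : Flat G th := by
  obtain ⟨z, hz⟩ := (hA.flat_iff th').1 hF
  have h0 : (0 : ℝ) ≤ th' := by positivity
  obtain ⟨M, I⟩ := hd.pc
  have hW := hX.wf
  classical
  obtain ⟨Y, y1, y2⟩ := hX.ok.cpl
    (fun x => if x ∈ X.T.ord then Zr X z (d.pc.rt.get x) + X.T.G.get x else z x) fun x hx => by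
      obtain ⟨n1, -, -, -, -, n6, -⟩ := hX.ok.nm x hx
      obtain ⟨a, b, -⟩ := I.rt_nm hX.ok hW hx
      simp only [if_pos hx, if_pos n1, Zr, a, b, n6]
  have ht' : ((th1 : ℝ) + (2 * k.LM + 1) * th') * P.al ≤ th := by exact_mod_cast ht
  have al1 : (1 : ℝ) ≤ P.al := by exact_mod_cast one_le_al hP
  refine ⟨Y, fun e he => ?_⟩
  have l0 : (0 : ℝ) ≤ (G.ed e).l := by positivity
  cases og : d.og.get e
  · obtain ⟨i1, i2⟩ := hd.ins e he og
    have key : ∀ v, (∀ x ∈ X.T.cop.get v, d.pc.cut.get x = true) → ∀ x ∈ X.T.cv P v,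
        (if x ∈ X.T.ord then Zr X z (d.pc.rt.get x) + X.T.G.get x else z x) = z x := by
      intro v hv x hx
      unfold LF.cv at hx
      split_ifs at hx with a
      · rw [List.mem_singleton.1 hx, if_neg (hX.ok.nw v)]
      · obtain ⟨b1, b2, -⟩ := (hX.ok.cop v).2.2 x hx
        rw [if_pos b1, I.p.rt_cut (List.mem_toFinset.2 b1) (hv x hx), Zr, b2]; ring
    refine (y2 _ _ _ (th' * (G.ed e).l) fun x hx y hy => ?_).trans
      (mul_le_mul_of_nonneg_right ?_ l0)
    · obtain ⟨q, q1, q2⟩ := i2 x hx y hy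
      have := hz (3 * q + 2) _ (by rw [tb2, ptT, q2])
      simp only [cpE, q1, hd.ed e he] at this
      rwa [key _ (fun x h => i1 x (List.mem_append_left _ h)) x hx,
        key _ (fun x h => i1 x (List.mem_append_right _ h)) y hy]
    · refine le_trans ?_ ht'
      have : (0 : ℝ) ≤ th1 + 2 * k.LM * th' := by positivity
      nlinarith
  · obtain ⟨g0, -, g2⟩ := hd.og e og
    rw [g2] at l0 ⊢
    refine (y1 e g0 _ (th1 + (2 * k.LM + 1) * th') (by positivity) fun x hx ex => ?_).trans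
      (mul_le_mul_of_nonneg_right ht' l0)
    obtain ⟨o, ho, rfl⟩ := hX.sur x hx
    obtain ⟨-, ou, ov, -⟩ := hX.ok.obj _ hx
    have e1 : ((G0.ed e).g : ℝ) - ((if (X.ob.get o).2.2.1 ∈ X.T.ord then
        Zr X z (d.pc.rt.get (X.ob.get o).2.2.1) + X.T.G.get (X.ob.get o).2.2.1
          else z (X.ob.get o).2.2.1) - (if (X.ob.get o).2.1 ∈ X.T.ord then
        Zr X z (d.pc.rt.get (X.ob.get o).2.1) + X.T.G.get (X.ob.get o).2.1
          else z (X.ob.get o).2.1)) =
        X.gt.get o - (Zr X z (d.vx.get (2 * o + 1)) - Zr X z (d.vx.get (2 * o))) := by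
      rw [if_pos ou, if_pos ov, hd.vx.tl ho, hd.vx.hd ho, hX.gt o ho, ex]; push_cast; ring
    rw [e1, ← hX.la o ho]
    have l1 : (0 : ℝ) ≤ X.la.get o := by positivity
    by_cases po : d.pub.get o = true
    · refine (pub_flat hX hd h0 hz po).trans (mul_le_mul_of_nonneg_right ?_ l1)
      have : (0 : ℝ) ≤ th1 + 2 * k.LM * th' := by positivity
      linarith
    · have al := (hs.cov o ho (ex ▸ og)).resolve_right po
      refine ((hI.close hX.clsrv (fun e f a b => hX.latwo (hs.al e a).1 (hs.al f b).1) h0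
        (fun f pf => pub_flat hX hd h0 hz (hs.dp f pf)) al fun h => po (hs.dp o h)).1
        (by simp [hb])).trans (mul_le_mul_of_nonneg_right (by linarith) l1)

/-- **a bad object destroys the flatness** -/
theorem not_flat (hX : FxOk P c G0 X) (hd : DnOk P Q K X G0 G d) {ds : Ds.St}
    (hI : Ds.Inv k Nx Gam X.cls.get X.gt.get X.la.get th1 L d.vx.get ds n)
    (h1 : ∀ o, ds.al.get o = true → o < X.nO) (h2 : ∀ o, ds.pub o → d.pub.get o = true) {o : ℕ}
    (al : ds.al.get o = true) (np : ¬ds.pub o)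
    (nc : ¬Ds.Cov X.gt.get X.la.get th1 (ds.cur.sn.w.get o) o) (po : d.pub.get o = true)
    (hA : Agr H wk (tb Q X d)) {th' : ℕ} (ht : (2 * k.LM + 1) * th' ≤ th1) : ¬Flat H th' := by
  intro hF
  obtain ⟨z, hz⟩ := (hA.flat_iff th').1 hF
  have h0 : (0 : ℝ) ≤ th' := by positivity
  have a := (hI.close hX.clsrv (fun e f a b => hX.latwo (h1 e a) (h1 f b)) h0
    (fun f pf => pub_flat hX hd h0 hz (h2 f pf)) al np).2 nc
  have b := pub_flat hX hd h0 hz po
  have ht' : (2 * (k.LM : ℝ) + 1) * th' ≤ th1 := by exact_mod_cast ht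
  have l1 : (0 : ℝ) ≤ X.la.get o := by positivity
  nlinarith [mul_le_mul_of_nonneg_right ht' l1]

end Crest.Agent.N325.Sg
end

-- ▼ part N325/Sg/Probe
section

/-!
# Row 325 (helper31): the probe of a stage
-/

set_option autoImplicit false
open Finset

namespace Crest.Agent.N325.Sg

open Tw Lt

variable {g : Gl} {K : ℕ} {c c' : Bd} {A : Type} {p : Pr A} {k : Ds.Cs} {Nx : ℕ → ℕ → Prop}
  {Gam : ℕ → ℕ} {L n : ℕ}

theorem sp_probe {th' th : ℕ} (B : BdOk p.P p.Q K c c') (hfu : K < p.fu) (h2 : c'.nb ≤ g.X)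
    (h3 : 2 * (p.P.Hb * c.gb) ≤ g.X) (h4 : k.LM * ((2 * p.P.Hb + 1) * c.gb) ≤ g.X)
    (t1 : (2 * k.LM + 1) * th' ≤ p.th1) (t2 : (p.th1 + (2 * k.LM + 1) * th') * p.P.al ≤ th)
    {s : St A} {G H : Gr} {wk : ℕ → Wk}
    (hI : Inv p c K k Nx Gam L s G H wk n) (hF : Flat H th') :
    Sp g (probe s) fun r t => k.rc r.1.2.2.ds = k.rc s.2.2.ds ∧
      t + k.Phi r.1.2.2.ds ≤ k.Phi s.2.2.ds + (147 * K + 290) ∧ r.2.2 = none ∧
      ((r.2.1 = [] ∧ Inv p c K k Nx Gam L r.1 G H wk n ∧ Flat G th) ∨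
        (r.2.1 ≠ [] ∧ Oks K c' G H r.2.1 ∧
          Inv p c K k Nx Gam L r.1 G (apps H r.2.1) (wks wk r.2.1) (n + 1) ∧ r.2.1.length ≤ 38 ∧
          ¬Flat (apps H r.2.1) th')) := by
  obtain ⟨p', X, d⟩ := s
  obtain ⟨e0, hG, G0, hX, hd, hs, ⟨n', hn', hD⟩, hA, hl⟩ := hI
  obtain rfl : p' = p := e0
  dsimp only at hX hd hs hD hA hl
  have hO : 3 * X.nO ≤ g.X := by
    have := hX.ok.olen
    have := B.n2
    rw [hX.nO]
    rw [B.hQ] at this
    omega
  refine (Ds.sp_probe hD (fun e m => (hX.gt_le e (hs.al e m).1).1) h4).bind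
    fun r t ⟨a1, a2, a3, a4, a5, a6⟩ => ?_
  obtain ⟨ds, _ | o⟩ := r
  · obtain ⟨b1, b2⟩ := a5 rfl
    dsimp only at a1 a2 a3 a4 b1 b2
    have hd' : DnOk p'.P p'.Q K X G0 G ⟨d.ed, d.og, d.pc, d.vx, ds, d.pub, d.pt, d.lv⟩ :=
      ⟨hd.pc, hd.ed, hd.og, hd.liv, hd.vx, hd.pub, hd.pt, hd.ins⟩
    have hs' : DsOk X d.og ds d.pub :=
      ⟨b1 ▸ hs.al, b1 ▸ hs.cov, fun o m => hs.dp o ((a2 o).1 m)⟩
    exact ⟨a3, by dsimp only; omega, rfl, Or.inl ⟨rfl,
      ⟨rfl, hG, G0, hX, hd', hs', ⟨n', hn', a1⟩, hA, hl⟩, flat_of B.P1 hX hd' hs' a1 b2 hA hF t2⟩⟩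
  · obtain ⟨b1, b2, b3, b4⟩ := a6 o rfl
    dsimp only at a1 a2 a3 a4 b1
    refine (sp_pub1 (K := K) (w := ((d.pc, []), d.pub, [])) hX hfu (hs.al o b2) hO hd.pc
      hd.pub).bind fun w u1 ⟨c1, c2, ⟨m, c3, c4, c5⟩, c0, c9, c10, T1⟩ => ?_
    have c6 : w.1.1.cut = d.pc.cut := c0.cut
    have c7 : w.1.1.rt = d.pc.rt := c0.rt
    dsimp only at c3 c5 c9 c10
    rw [List.append_nil] at c3
    have hd' : DnOk p'.P p'.Q K X G0 G ⟨d.ed, d.og, w.1.1, d.vx, ds, w.2.1, d.pt, d.lv⟩ :=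
      ⟨c1, hd.ed, hd.og, fun x a b => hd.liv x a (c6 ▸ b), c7 ▸ hd.vx, c2, hd.pt,
        fun e a b => ⟨c6 ▸ (hd.ins e a b).1, (hd.ins e a b).2⟩⟩
    have po : w.2.1.get o = true := by rw [c9, Arr.get_set_self]
    have up : ∀ x, d.pub.get x = true → w.2.1.get x = true := fun x h => by
      rw [c9, Arr.get_set]
      split_ifs
      exacts [rfl, h]
    refine (sp_fin (d := ⟨d.ed, d.og, d.pc, d.vx, ds, d.pub, d.pt, d.lv⟩) B hX hG hd' hA hl
      (fun i a b => ?_) (fun u a => List.mem_toFinset.1 (c5.ids u (c3 ▸ a))) h2 h3).bind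
      fun z t2 ⟨e1, e2, e3, e4, e5, T2⟩ => ?_
    · unfold tb
      split_ifs with q1 q2
      · have := c5.eq _ (c3 ▸ b q1)
        simp only [Pc.seg, this.1, this.2]
      · have : w.2.1.get (i / 3) = d.pub.get (i / 3) := by
          rw [c9, Arr.get_set_ne _ fun q => a ?_]
          rw [c10, ← q, List.mem_singleton]
          omega
        simp only [objT, this]
      · rfl
    · have hd'' : DnOk p'.P p'.Q K X G0 G z.1 := by
        rw [e1]
        exact ⟨hd'.pc, hd'.ed, hd'.og, hd'.liv, hd'.vx, hd'.pub, hd'.pt, hd'.ins⟩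
      have z1 : z.1.og = d.og := by rw [e1]
      have z2 : z.1.ds = ds := by rw [e1]
      have z3 : z.1.pub = w.2.1 := by rw [e1]
      have z4 : z.1.vx = d.vx := by rw [e1]
      have nf : ¬Flat (apps H z.2) th' := not_flat hX hd'' (z4 ▸ hD) (fun x a => (hs.al x a).1)
        (fun x a => z3 ▸ up x (hs.dp x a)) b2 b3 b4 (z3 ▸ po) e3 t1
      have hs' : DsOk X z.1.og z.1.ds z.1.pub := by
        rw [z1, z2, z3]
        refine ⟨fun x a => hs.al x ?_, fun x a b => ?_, fun x a => up x (hs.dp x ((a2 x).1 a))⟩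
        · rw [b1, Arr.get_set] at a
          split_ifs at a
          exact a
        · by_cases q : x = o
          · exact Or.inr (q ▸ po)
          · rw [b1, Arr.get_set_ne _ q]
            exact (hs.cov x a b).imp_right (up x)
      have l1 : w.1.2.length + w.2.2.length ≤ 19 := by
        rw [c3, c10]
        simp only [List.length_singleton]
        omega
      have := Nat.mul_le_mul_left (3 * K + 7) l1
      refine ⟨by dsimp only; rw [z2, a3], ?_, rfl, Or.inr ⟨fun q => nf ?_, e2,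
        ⟨rfl, hG, G0, hX, hd'', hs', ⟨n', by omega, ?_⟩, e3, e4⟩, by dsimp only; omega, nf⟩⟩
      · dsimp only
        rw [z2]
        omega
      · dsimp only at q
        rwa [q]
      · dsimp only
        rwa [z2, z4]

end Crest.Agent.N325.Sg
end

-- ▼ part N325/Sg/Spec
section

/-! # Row 325 (helper20): the specification of the stage -/

set_option autoImplicit false

namespace Crest.Agent.N325.Sg

open Tw Lt

variable {g : Gl} {K TL : ℕ} {A : Type} {lf : A → List (ℕ × Ed) → R LF}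
  {bx : A → Arr ℕ → Ds.BI → R Ds.BO} {p : Pr A} {k : Ds.Cs} {Nx : ℕ → ℕ → Prop} {Gam : ℕ → ℕ}
  {sc : SC}

/-- the constants of the stage are large enough -/
structure SH (g : Gl) (p : Pr A) (K TL : ℕ) (k : Ds.Cs) (sc : SC) : Prop where
  h4 : k.LM * ((2 * p.P.Hb + 1) * sc.c.gb) ≤ g.X
  t1 : (2 * k.LM + 1) * sc.th' ≤ p.th1
  t2 : (p.th1 + (2 * k.LM + 1) * sc.th') * p.P.al ≤ sc.th
  lim : sc.lim < (k.b + 1) ^ p.pr.length
  hK : K ≤ sc.K
  ρ : 2 * (p.P.D + 1) * p.P.S + 2 * p.Q ≤ sc.ρ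
  RB : 38 * k.cH * ((p.P.D + 3) * nN p.P sc.c.m + p.K0) ≤ p.K0 * sc.RB
  RU : 2 * aU p.P k p.pr.length ≤ sc.RU
  RU' : 38 ≤ sc.RU
  TB : tB p.P K k sc.c.m TL p.pr.length ≤ sc.TB
  TU : tU p.P K k p.pr.length ≤ sc.TU
  TU' : 147 * K + 290 ≤ sc.TU

/-- **the stage meets its specification** -/
theorem stageSpec (h : UH g p K sc.c sc.c' k) (h' : BH g p K sc.c k Nx Gam) (s : SH g p K TL k sc)
    (hb : ∀ G0 X, FxOk p.P sc.c G0 X → Ds.BoxSpec g (bx p.a X.cls) X.cls.get k Nx Gam)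
    (hlf : ∀ G l, G.Ok sc.c → Enum G l →
      Sp g (lf p.a l) fun T t => T.Ok G p.P sc.c.m sc.c.nb ∧ t ≤ TL) :
    StageSpec g (stage lf bx) p sc (Inv p sc.c K k Nx Gam p.pr.length) (PhiS K k) (rcS k) := by
  refine ⟨fun hI => ?_, fun G l wk hG hl => ?_, fun o hI hn ho _ hG' => ?_,
    fun hI _ _ hF => ?_⟩
  · obtain ⟨rfl, hG, G0, hX, hd, -, -, hA, -⟩ := hI
    have r := rel_of h.B hX hd hG hA
    exact ⟨r.tel, fun x hx => ⟨(r.wok x hx).1, (r.wok x hx).2.1.trans s.hK, (r.wok x hx).2.2⟩,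
      r.grad, fun e he => (r.use e he).trans s.ρ⟩
  · refine (sp_build h h' hb wk hG hl (hlf G l hG hl)).mono ?_
    rintro r t ⟨a1, a2, a3, a4⟩
    exact ⟨oks_mono s.hK a1, a2, Nat.le_of_mul_le_mul_left (a3.trans s.RB) h'.K0, a4.trans s.TB⟩
  · refine (sp_upd h hb (lt_of_le_of_lt hn s.lim) o hI ho hG').mono ?_
    rintro r t ⟨a1, a2, a3, a4⟩
    have := s.RU; have := s.TU
    exact ⟨oks_mono s.hK a1, a2, by omega, by omega⟩
  · refine (sp_probe h.B h.fu h.nb h.gb s.h4 s.t1 s.t2 hI hF).mono ?_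
    rintro r t ⟨a1, a2, a3, a4⟩
    have := s.RU'; have := s.TU'
    refine ⟨by unfold PhiS; rw [a1]; omega, a4.imp ?_ ?_⟩
    · rintro ⟨b1, b2, b3⟩
      exact ⟨b1, b2, by unfold rcS; rw [a1], by simp [a3], fun _ => b3⟩
    · rintro ⟨b1, b2, b3, b4, b5⟩
      exact ⟨b1, a3, oks_mono s.hK b2, b3, by unfold rcS; rw [a1]; omega, b5⟩

end Crest.Agent.N325.Sg
end

-- ▼ part N325/Ag/FinC
section

/-!
# Row 325, AUGMENT (helper94): the last step — the program on the data
-/

set_option autoImplicit false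
open Finset

namespace Crest.Agent.N325.P2

open Crest.Agent.N325.Tw Crest.Agent.N325.Ip Crest.Agent.N325.Mt Crest.Agent.N325.Bf

variable {g : Gl} {G : Gf} {d : Dt} {o fu K c : ℕ}

/-- match the two root classes along `o`; new data, their vertices, the darts out of them -/
def finDt (G : Gf) (fu : ℕ) (d : Dt) (o : ℕ) : R (Dt × List ℕ × List ℕ) := do
  let m ← augC G.av (fun x => d.mem.get (d.cls.get x)) fu [(G.tl.get o, G.hd o)] d.mt
  let W ← appL (d.mem.get (d.cls.get (G.tl.get o))) (d.mem.get (d.cls.get (G.hd o)))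
  let O ← flatMapP G.adj.get W
  let st ← setAllP (fun _ => 0) W d.st
  let cls ← setAllP (fun v => v) W d.cls
  let pr ← setAllP (fun _ => false) O d.pr
  let Q ← rvApp O d.Q
  pure (⟨st, cls, d.mem, d.cw, d.bs, m, pr, Q⟩, W, O)

/-- what the program on the data returns -/
structure FinO (G : Gf) (d : Dt) (w : ℕ) (d' : Dt) (W O : List ℕ) : Prop where
  nd : W.Nodup
  len : W.length = w
  root : RootW G d W.toFinset
  rel : FinR G d W.toFinset d'
  ex2 : ex W.toFinset d.mt.get = 2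
  cl2 : #(W.toFinset.filter (isC G d)) ≤ 2
  q : d'.Q.length ≤ d.Q.length + 3 * #W.toFinset
  ex : ex (range G.n) d'.mt.get + 2 = ex (range G.n) d.mt.get
  ndO : O.Nodup
  mO : ∀ o, o ∈ O ↔ o < G.nd ∧ G.tl.get o ∈ W
  lO : O.length ≤ 3 * W.length

theorem sCost_le' (w : G.WF) {S : Finset ℕ} (hK : #S < 2 ^ K) :
    sCost S G.av ≤ (2 * K + 45) * #S + 11 := by
  have a : ∑ v ∈ S, (G.av.get v).length ≤ #S * 3 := sum_le_card_nsmul _ _ _ fun v _ => w.av_deg v
  have b : Nat.log 2 #S ≤ K := by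
    rcases Nat.eq_zero_or_pos #S with z | z
    · rw [z]; simp
    · exact (Nat.log_lt_of_lt_pow z.ne' hK).le
  have := Nat.mul_le_mul_left #S b
  unfold sCost; nlinarith

/-- a root class is closed under the matching, perfectly matched apart from the base -/
theorem Cmb.rootC (h : Cmb G d) (i : isC G d c) (r : d.mt.get (d.bs.get c) = d.bs.get c) :
    (∀ v ∈ d.mem.get c, d.mt.get v ∈ d.mem.get c) ∧
      IsP ((d.mem.get c).toFinset.erase (d.bs.get c)) G.E d.mt.get := by
  have b := (h.bs c i).1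
  refine ⟨fun v k => ?_, fun v hv => ?_, fun v hv => ?_⟩
  · by_cases q : v = d.bs.get c
    · rw [q, r]; exact b
    · exact (h.inside c i v k q).1
  all_goals
    obtain ⟨k1, k2⟩ := mem_erase.1 hv
    have k := h.inside c i v (List.mem_toFinset.1 k2) k1
    have lt := ((h.mem c i v).1 (List.mem_toFinset.1 k2)).1
  · exact ⟨mem_erase.2 ⟨fun q => k1 (by rw [← h.mt_mt lt, q, r]), List.mem_toFinset.2 k.1⟩,
      h.mt_mt lt, h.isM.adj (mem_range.2 lt)⟩
  · exact k.2

theorem sp_finDt (w : G.WF) (h : Cmb G d) (ho : o < G.nd) (s1 : d.st.get (G.tl.get o) = 2)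
    (s2 : d.st.get (G.hd o) = 2) (ne : d.cls.get (G.tl.get o) ≠ d.cls.get (G.hd o))
    (r1 : (bgOf G d).mu (d.cls.get (G.tl.get o)) = none)
    (r2 : (bgOf G d).mu (d.cls.get (G.hd o)) = none) (hX : G.n ≤ g.X) (hK : G.n < 2 ^ K)
    (hf : (2 * K + 45) * G.n + 11 ≤ fu) :
    Sp g (finDt G fu d o) fun r t =>
      FinO G d (d.cw.get (d.cls.get (G.tl.get o)) + d.cw.get (d.cls.get (G.hd o))) r.1 r.2.1 r.2.2 ∧
      t ≤ (6 * K + 160) * (r.2.1.length + 1) := by
  obtain ⟨a, ha⟩ : ∃ a, a = G.tl.get o := ⟨_, rfl⟩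
  obtain ⟨b, hb⟩ : ∃ b, b = G.hd o := ⟨_, rfl⟩
  have la : a < G.n := ha ▸ w.tl_lt o ho
  have lb : b < G.n := hb ▸ w.hd_lt ho
  have eab : G.E a b := ⟨o, ho, ha.symm, hb.symm⟩
  unfold finDt
  simp only [← ha, ← hb] at s1 s2 ne r1 r2 ⊢
  have r1 : d.mt.get (d.bs.get (d.cls.get a)) = d.bs.get (d.cls.get a) := by
    by_contra k; simp [bgOf, k] at r1
  have r2 : d.mt.get (d.bs.get (d.cls.get b)) = d.bs.get (d.cls.get b) := by
    by_contra k; simp [bgOf, k] at r2
  have ia := h.out a la s1; have ib := h.out b lb s2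
  have ab : a ≠ b := fun k => ne (k ▸ rfl)
  obtain ⟨W, hW⟩ : ∃ W, W = d.mem.get (d.cls.get a) ++ d.mem.get (d.cls.get b) := ⟨_, rfl⟩
  have mW : ∀ v, v ∈ W ↔ v < G.n ∧ d.st.get v = 2 ∧
      (d.cls.get v = d.cls.get a ∨ d.cls.get v = d.cls.get b) := fun v => by
    rw [hW, List.mem_append, h.mem _ ia, h.mem _ ib]; tauto
  have dj : ∀ v ∈ d.mem.get (d.cls.get a), v ∉ d.mem.get (d.cls.get b) := fun v p q =>
    ne (((h.mem _ ia v).1 p).2.2.symm.trans ((h.mem _ ib v).1 q).2.2)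
  have nd : W.Nodup := hW ▸ List.nodup_append.2 ⟨h.nodup _ ia, h.nodup _ ib,
    fun v p u q e => dj v p (e ▸ q)⟩
  have lt : ∀ v ∈ W, v < G.n := fun v k => ((mW v).1 k).1
  have sub : ∀ x, isC G d x → (d.mem.get x).toFinset ⊆ range G.n := fun x i v k =>
    mem_range.2 ((h.mem x i v).1 (List.mem_toFinset.1 k)).1
  have sc : ∀ x, isC G d x → sCost (d.mem.get x).toFinset G.av ≤
      (2 * K + 45) * (d.mem.get x).length + 11 := fun x i => by
    rw [← List.toFinset_card_of_nodup (h.nodup x i)]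
    exact sCost_le' w (((card_le_card (sub x i)).trans (card_range _).le).trans_lt hK)
  have hK1 : ∀ x, x < G.n → d.st.get x = 2 →
      d.mt.get (d.bs.get (d.cls.get x)) = d.bs.get (d.cls.get x) →
      (d.mem.get (d.cls.get x)).Nodup ∧ x ∈ d.mem.get (d.cls.get x) ∧
      (d.mem.get (d.cls.get x)).toFinset ⊆ range G.n ∧ FC (d.mem.get (d.cls.get x)).toFinset G.E ∧
      ∃ y ∈ d.mem.get (d.cls.get x), IsP ((d.mem.get (d.cls.get x)).toFinset.erase y) G.E d.mt.get :=
    fun x k s r => have i := h.out x k s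
      ⟨h.nodup _ i, (h.mem _ i x).2 ⟨k, s, rfl⟩, sub _ i, h.fc _ i, _, (h.bs _ i).1, (h.rootC i r).2⟩
  have rw' : RootW G d W.toFinset := by
    refine ⟨fun v k => lt v (List.mem_toFinset.1 k), fun v k => ((mW v).1 (List.mem_toFinset.1 k)).2.1,
      fun v k s => ?_, fun v k => ?_⟩
    · have i := h.out v k s
      simp only [List.mem_toFinset, mW, k, s, i.1, i.2.1, i.2.2]
    · rcases ((mW v).1 (List.mem_toFinset.1 k)).2.2 with q | q <;> rw [q] <;> assumption
  have e2 : ex W.toFinset d.mt.get = 2 := by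
    have ba := (h.mem _ ia _).1 (h.bs _ ia).1; have bb := (h.mem _ ib _).1 (h.bs _ ib).1
    rw [ex, show exs W.toFinset d.mt.get = {d.bs.get (d.cls.get a), d.bs.get (d.cls.get b)} from ?_,
      card_pair fun k => ne (by rw [← ba.2.2, k, bb.2.2])]
    ext v
    rw [mem_exs, List.mem_toFinset, mW, mem_insert, mem_singleton]
    refine ⟨fun ⟨⟨p, _, q⟩, e⟩ => q.imp (fun q => by rw [← q, (h.root p e).2])
      fun q => by rw [← q, (h.root p e).2], ?_⟩
    rintro (rfl | rfl)
    exacts [⟨⟨ba.1, ba.2.1, .inl ba.2.2⟩, r1⟩, ⟨⟨bb.1, bb.2.1, .inr bb.2.2⟩, r2⟩]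
  refine (sp_augC (V := range G.n) (U := W.toFinset) w.symm w.av (by rwa [card_range])
    ((sCost_le' w (by rwa [card_range])).trans (by rwa [card_range])) h.isM (by simp [vs, ab])
    (by simpa using eab) ?_ ?_ (fun v => by simp [vs, hW]) fun v hv => ?_).bind
    fun m t0 ⟨m1, m2, m3, m4, m5, m6⟩ => (sp_appL _ _).bind fun W' t1 ⟨k1, u1⟩ => ?_
  · simp only [vs, List.flatMap_cons, List.flatMap_nil, List.append_nil, List.mem_cons,
      List.not_mem_nil, or_false]
    rintro x (rfl | rfl) y (rfl | rfl) q v p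
    exacts [absurd rfl q, dj v p, fun z => dj v z p, absurd rfl q]
  · simp only [vs, List.flatMap_cons, List.flatMap_nil, List.append_nil, List.mem_cons,
      List.not_mem_nil, or_false]
    rintro x (rfl | rfl)
    exacts [hK1 _ la s1 r1, hK1 _ lb s2 r2]
  · rw [List.mem_toFinset, hW, List.mem_append] at hv ⊢
    exact hv.imp ((h.rootC ia r1).1 v) ((h.rootC ib r2).1 v)
  obtain rfl : W' = W := k1.trans hW.symm
  refine (sp_flatMapP _ _).bind fun O t2 ⟨k2, u2⟩ => (sp_setAllP _ _ _).bind fun st t3 ⟨k3, u3⟩ =>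
    (sp_setAllP _ _ _).bind fun cls t4 ⟨k4, u4⟩ => (sp_setAllP _ _ _).bind fun pr t5 ⟨k5, u5⟩ =>
    (sp_rvApp _ _).bind fun Q t6 ⟨k6, u6⟩ => sp_pure.2 ?_
  have mO : ∀ p, p ∈ O ↔ p < G.nd ∧ G.tl.get p ∈ W' := fun p => k2 ▸ mem_drO w lt
  have lO : O.length ≤ 3 * W'.length := k2 ▸ length_drO w W'
  have cW : #W'.toFinset = W'.length := List.toFinset_card_of_nodup nd
  have lW : W'.length = (d.mem.get (d.cls.get a)).length + (d.mem.get (d.cls.get b)).length := by
    rw [hW, List.length_append]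
  obtain ⟨ma, mb⟩ := m4 (a, b) List.mem_cons_self
  have pa := m5 a (by simp [vs]); have pb := m5 b (by simp [vs])
  have aW := (mW a).2 ⟨la, s1, .inl rfl⟩; have bW := (mW b).2 ⟨lb, s2, .inr rfl⟩
  refine ⟨⟨nd, by rw [lW, h.cw _ ia, h.cw _ ib], rw', ⟨fun v => by simp [k3], fun v => by simp [k4],
    rfl, rfl, rfl, m1, m3, fun v hv => ?_, fun p hp => ?_, fun p => ?_⟩, e2, ?_, ?_, e2 ▸ m2, ?_, mO,
    lO⟩, ?_⟩
  · simp only [List.mem_toFinset] at hv ⊢
    by_cases q1 : v = a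
    · rw [q1]; exact ⟨ma.symm ▸ bW, ma.symm ▸ ab.symm⟩
    by_cases q2 : v = b
    · rw [q2]; exact ⟨mb.symm ▸ aW, mb.symm ▸ ab⟩
    rw [hW, List.mem_append] at hv ⊢
    rcases hv with z | z
    · have z := mem_erase.2 ⟨q1, List.mem_toFinset.2 z⟩
      exact ⟨.inl (List.mem_toFinset.1 (mem_of_mem_erase (pa.1.mem z))), pa.2 v z⟩
    · have z := mem_erase.2 ⟨q2, List.mem_toFinset.2 z⟩
      exact ⟨.inr (List.mem_toFinset.1 (mem_of_mem_erase (pb.1.mem z))), pb.2 v z⟩
  · simp only [k5, mO, hp, true_and, List.mem_toFinset]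
    split_ifs with q <;> simp [q]
  · simp only [k6, List.mem_append, rvL, List.mem_reverse, List.mem_map, List.mem_toFinset]
    refine or_congr_left ⟨?_, fun k => ⟨rv p, (mO _).2 ⟨w.rv_lt k.1, k.2⟩, rv_rv p⟩⟩
    rintro ⟨x, k, rfl⟩
    exact ⟨w.rv_lt ((mO x).1 k).1, by rw [Gf.hd_rv]; exact ((mO x).1 k).2⟩
  · refine (card_le_card (t := {d.cls.get a, d.cls.get b}) fun v k => ?_).trans card_le_two
    obtain ⟨p, q⟩ := mem_filter.1 k
    have := ((mW v).1 (List.mem_toFinset.1 p)).2.2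
    rwa [q.2.2, ← mem_singleton (a := d.cls.get b), ← mem_insert] at this
  · simp only [k6, List.length_append, rvL, List.length_reverse, List.length_map]; omega
  · rw [k2]
    refine List.nodup_flatMap.2 ⟨fun v k => w.nodup v (lt v k), nd.pairwise_of_forall_ne ?_⟩
    exact fun x hx y hy q p p1 p2 =>
      q (((w.mem x (lt x hx) p).1 p1).2.symm.trans ((w.mem y (lt y hy) p).1 p2).2)
  · have := sc _ ia; have := sc _ ib
    simp only [vs, List.flatMap_cons, List.flatMap_nil, List.append_nil, List.map_cons, List.map_nil,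
      List.sum_cons, List.sum_nil] at m6
    rw [← k2] at u2
    simp only [lW] at *
    nlinarith

end Crest.Agent.N325.P2
end

-- ▼ part N325/Ag/FinN
section

/-!
# Row 325, AUGMENT (helper94): the last step — the network
-/

set_option autoImplicit false
open Finset

namespace Crest.Agent.N325.P2

open Crest.Agent.N325.Tw Crest.Agent.N325.Ip Crest.Agent.N325.Mt Crest.Agent.N325.Bf
  Crest.Agent.N325.Op

variable {D : ℕ} {C : Cf} {G : Gf} {d d' : Dt} {W : Finset ℕ} {v : ℕ} {N N' : Net} {l : ℤ}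

/-- the plain arcs out of `W` -/
def fnP (G : Gf) (d : Dt) (W : Finset ℕ) : Finset ℕ :=
  (range G.nd).filter fun o => d.pr.get o = true ∧ G.tl.get o ∈ W
/-- the flow from `W` to `h` -/
def fnF (G : Gf) (d : Dt) (W : Finset ℕ) (N : Net) (h : ℕ) : ℤ :=
  ∑ o ∈ fnP G d W with G.hd o = h, N.X (5 * o)
/-- the heads -/
def fnH (G : Gf) (d : Dt) : Finset ℕ := (range G.n).filter fun v => d.st.get v ≠ 2

theorem mem_fnP : v ∈ fnP G d W ↔ has G d (5 * v) ∧ G.tl.get v ∈ W := by
  simp [fnP, has0, and_assoc]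
theorem mem_fnH : v ∈ fnH G d ↔ has G d (5 * v + 3) := by simp [fnH, has3]

theorem sum_fnF (w : G.WF) (c : Cmb G d) {K : Type} [CommRing K] (z : ℕ → K) :
    ∑ h ∈ fnH G d, (fnF G d W N h : K) * z h = ∑ o ∈ fnP G d W, (N.X (5 * o) : K) * z (G.hd o) := by
  rw [← sum_fiberwise_of_maps_to (s := fnP G d W) (t := fnH G d) (g := G.hd) fun o ho => by
    obtain ⟨a, b⟩ := has0.1 (mem_fnP.1 ho).1
    exact mem_filter.2 ⟨mem_range.2 (w.hd_lt a), (c.pr o a b).2.1⟩]
  refine sum_congr rfl fun h _ => ?_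
  rw [fnF, Int.cast_sum, sum_mul]
  exact sum_congr rfl fun o ho => by rw [(mem_filter.1 ho).2]

/-- the network after the last step -/
structure FinN (D : ℕ) (C : Cf) (G : Gf) (d : Dt) (W : Finset ℕ) (d' : Dt) (N N' : Net) (l : ℤ) :
    Prop where
  mem : ∀ e, e ∈ N'.E ↔ has G d' e
  arc : ∀ e ∈ N'.E, N'.arc e = arcOf D C G d' e
  kp : ∀ e ∈ N'.E, e % 5 ≠ 3 → e ∈ N.E → N'.X e = N.X e
  on : ∀ v ∈ W, N'.X (5 * v + 3) = l ∧ N'.X (5 * v + 4) = l
  gh : ∀ h ∈ fnH G d, N'.X (5 * h + 3) = N.X (5 * h + 3) + fnF G d W N h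

theorem has_lt {e : ℕ} (h : has G d e) : e < 5 * (G.nd + G.n) := by
  obtain ⟨v, rfl | rfl | rfl | rfl | rfl⟩ := id_cases e
  · have := (has0.1 h).1; omega
  · have := (has1.1 h).1; omega
  · have := (has2.1 h).1; omega
  · have := (has3.1 h).1; omega
  · have := (has4.1 h).1; omega

section tot
variable {M : Type} [AddCommGroup M] (f : Arc → ℤ → M)

theorem tot_ids {K : ℕ} (h : ∀ e ∈ N.E, e < 5 * K) : tot f N = ∑ v ∈ range K,
    (old f N (5 * v) + old f N (5 * v + 1) + old f N (5 * v + 2) + old f N (5 * v + 3) +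
      old f N (5 * v + 4)) := by
  have : tot f N = ∑ e ∈ range (5 * K), old f N e := by
    simp only [old, sum_ite_mem]
    rw [inter_eq_right.2 fun e he => mem_range.2 (h e he), tot]
  rw [this]; clear this h
  induction K with
  | zero => rfl
  | succ K ih => rw [sum_range_succ, ← ih, mul_add, mul_one]; simp only [sum_range_succ, add_assoc]

theorem sum_sub_range {K : ℕ} {S : Finset ℕ} (h : ∀ v ∈ S, v < K) (F : ℕ → M) :
    ∑ v ∈ S, F v = ∑ v ∈ range K, if v ∈ S then F v else 0 := by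
  rw [sum_ite_mem, inter_eq_right.2 fun e he => mem_range.2 (h e he)]

/-- **all sums over the arcs** -/
theorem FinN.tots (n : FinN D C G d W d' N N' l) (r : FinR G d W d') (w : RootW G d W)
    (c : Cmb G d) (a : Arcs D C G d N) :
    tot f N' = tot f N - ∑ o ∈ fnP G d W, f (aP C G d o) (N.X (5 * o)) +
      ∑ v ∈ W, (f (aG C v) l + f (aU D C v) l - old f N (5 * v + 1) - old f N (5 * v + 2)) +
      ∑ h ∈ fnH G d, (f (aG C h) (N.X (5 * h + 3) + fnF G d W N h) -
        f (aG C h) (N.X (5 * h + 3))) := by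
  have same : ∀ e, e % 5 ≠ 3 → has G d' e → has G d e → old f N' e = old f N e := fun e k p q => by
    have p' := (n.mem e).2 p; have q' := (a.mem e).2 q
    rw [old_mem f p', old_mem f q', n.arc e p', a.arc e q', r.arc w c p, n.kp e p' k q']
  have z' : ∀ e, ¬has G d' e → old f N' e = 0 := fun e p => old_notMem f fun q => p ((n.mem e).1 q)
  have z : ∀ e, ¬has G d e → old f N e = 0 := fun e p => old_notMem f fun q => p ((a.mem e).1 q)
  rw [tot_ids f fun e he => has_lt ((n.mem e).1 he), tot_ids f fun e he => has_lt ((a.mem e).1 he),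
    sum_sub_range (K := G.nd + G.n) (S := fnP G d W)
      fun v hv => by have := (has0.1 (mem_fnP.1 hv).1).1; omega,
    sum_sub_range (K := G.nd + G.n) (S := W) fun v hv => by have := w.lt v hv; omega,
    sum_sub_range (K := G.nd + G.n) (S := fnH G d)
      fun v hv => by have := (has3.1 (mem_fnH.1 hv)).1; omega,
    ← sum_sub_distrib, ← sum_add_distrib, ← sum_add_distrib]
  refine sum_congr rfl fun v _ => ?_
  have o0 : old f N' (5 * v) =
      old f N (5 * v) - if v ∈ fnP G d W then f (aP C G d v) (N.X (5 * v)) else 0 := by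
    by_cases p : has G d (5 * v)
    · by_cases q : G.tl.get v ∈ W
      · rw [if_pos (mem_fnP.2 ⟨p, q⟩), z' _ fun y => (r.h0.1 y).2 q, old_mem f (a.of_has p).1,
          (a.of_has p).2, arcOf0, sub_self]
      · rw [if_neg fun y => q (mem_fnP.1 y).2, same _ (by omega) (r.h0.2 ⟨p, q⟩) p, sub_zero]
    · rw [if_neg fun y => p (mem_fnP.1 y).1, z _ p, z' _ fun y => p (r.h0.1 y).1, sub_zero]
  by_cases k : v ∈ W
  · have p3 := (n.mem _).2 ((r.h3 w).2 (.inr k))
    have p4 := (n.mem _).2 ((r.h4 w).2 (.inr k))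
    have s := w.st v k
    rw [o0, z' _ fun y => ((r.h1 w).1 y).2 k, z' _ fun y => (r.h2.1 y).2 k, old_mem f p3,
      old_mem f p4, n.arc _ p3, n.arc _ p4, arcOf3, arcOf4, (n.on v k).1, (n.on v k).2,
      z (5 * v + 3) fun y => (has3.1 y).2 s, z (5 * v + 4) fun y => by have := (has4.1 y).2; omega,
      if_pos k, if_neg fun y => (has3.1 (mem_fnH.1 y)).2 s]
    abel
  · have g : ∀ e, e % 5 ≠ 3 → (has G d' e ↔ has G d e) → old f N' e = old f N e := fun e p q => by
      by_cases y : has G d e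
      · exact same e p (q.2 y) y
      · rw [z e y, z' e fun x => y (q.1 x)]
    rw [o0, g _ (by omega) ((r.h1 w).trans (and_iff_left k)),
      g _ (by omega) (r.h2.trans (and_iff_left k)), g (5 * v + 4) (by omega)
        ((r.h4 w).trans (or_iff_left k)), if_neg k]
    by_cases y : has G d (5 * v + 3)
    · have p3 := (n.mem _).2 ((r.h3 w).2 (.inl y))
      rw [if_pos (mem_fnH.2 y), old_mem f p3, n.arc _ p3, arcOf3, n.gh v (mem_fnH.2 y),
        old_mem f (a.of_has y).1, (a.of_has y).2, arcOf3]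
      abel
    · rw [if_neg fun x => y (mem_fnH.1 x), z _ y, z' _ fun x => y (((r.h3 w).1 x).resolve_right k)]
      abel
end tot

/-- the old arcs at a vertex of `W` -/
theorem RootW.old12 (w : RootW G d W) (a : Arcs D C G d N) (k : v ∈ W)
    {M : Type} [AddCommGroup M] (f : Arc → ℤ → M) :
    old f N (5 * v + 1) = (if d.mt.get v = v then
      f (capA 0 (d.cls.get v + 1) C.B) (N.X (5 * v + 1)) else 0) ∧
    old f N (5 * v + 2) = if isC G d v then
      f (snkA C v (d.cw.get v + 1)) (N.X (5 * v + 2)) else 0 := by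
  have s := w.st v k
  constructor <;> split_ifs with q
  · obtain ⟨x, y⟩ := a.entry (w.lt v k) (.inr q)
    rw [old_mem f x, y, aE, if_pos q, q]
  · exact old_notMem f fun y => (has1.1 ((a.mem _).1 y)).2.elim (by omega) q
  · rw [old_mem f (a.sink q).1, (a.sink q).2]
  · exact old_notMem f fun y => q (has2.1 ((a.mem _).1 y))

/-- the new flow is a circulation -/
theorem FinN.arcs (n : FinN D C G d W d' N N' l) (r : FinR G d W d') (w : RootW G d W)
    (g : G.WF) (c : Cmb G d) (a : Arcs D C G d N) : Arcs D C G d' N' := by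
  refine .of n.mem n.arc fun u hu => ?_
  obtain ⟨u, rfl⟩ := Nat.exists_eq_succ_of_ne_zero hu
  by_cases k : u ∈ W
  · have a0 : Arcs D C G d' ⟨N'.E, N'.arc, fun _ => 0⟩ := ⟨n.mem, n.arc, fun z => by simp⟩
    have s := r.st_on k
    have p3 := (n.mem _).2 ((r.h3 w).2 (.inr k))
    have p4 := (n.mem _).2 ((r.h4 w).2 (.inr k))
    rw [dv_eq, Op.inf, ouf, sum_eq_single_of_mem (5 * u + 3)
      (mem_filter.2 ⟨p3, by rw [n.arc _ p3, arcOf3]; rfl⟩) fun e he ne => ?_,
      sum_eq_single_of_mem (5 * u + 4) (mem_filter.2 ⟨p4, by rw [n.arc _ p4, arcOf4]; rfl⟩)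
      fun e he ne => ?_, (n.on u k).1, (n.on u k).2, sub_self]
    · obtain ⟨x, y⟩ := mem_filter.1 he
      rcases a0.out_head (r.cmb w c) g (by omega) x y with q | q
      · omega
      · exact absurd q.1 ne
    · obtain ⟨x, y⟩ := mem_filter.1 he
      rcases a0.in_head (r.cmb w c) (by omega) x y with q | ⟨o, -, q1, q2, q3⟩
      · exact absurd q ne
      · exact absurd (q3 ▸ w.st u k) (c.pr o q1 ((r.pr o q1).1 q2).1).2.1
  · have e := sum_fnF (N := N) (W := W) g c (K := ℤ) fun h => if h = u then 1 else 0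
    have cw : ∀ v ∈ W, d.cls.get v ≠ u := fun v hv q =>
      k (q ▸ (w.cl v (w.lt v hv) (w.st v hv)).1 hv)
    rw [dv, n.tots _ r w c a, ← dv, a.cons _ hu, sum_eq_zero (s := W) fun v hv => ?_,
      sum_congr rfl fun o ho => (?_ : _ = N.X (5 * o) * if G.hd o = u then 1 else 0),
      sum_congr (s₁ := fnH G d) rfl fun h _ => (?_ : _ = fnF G d W N h * if h = u then 1 else 0)]
    · simp only [Int.cast_id] at e; rw [e]; ring
    · rw [ct_add]; simp [ct, aG]
    · simp [ct, aP, capA, cw _ (mem_fnP.1 ho).2]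
    · have : v ≠ u := fun q => k (q ▸ hv)
      rw [(w.old12 a hv _).1, (w.old12 a hv _).2]
      simp [ct, aG, aU, capA, snkA, this, cw v hv]

/-- the flow out of `W` comes from the roots -/
theorem FinN.exit (n : FinN D C G d W d' N N' l) (r : FinR G d W d') (w : RootW G d W)
    (g : G.WF) (c : Cmb G d) (a : Arcs D C G d N) {b : ℤ} (hb : ∀ e ∈ N.E, 0 < N.X e ∧ N.X e < b) :
    ∑ o ∈ fnP G d W, N.X (5 * o) ≤ ex W d.mt.get * b := by
  obtain ⟨z, hz⟩ : ∃ z : ℕ → ℤ, ∀ u, z u = if u ≠ 0 ∧ u - 1 ∈ W then 1 else 0 := ⟨_, fun _ => rfl⟩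
  have z0 : z 0 = 0 := by simp [hz]
  have z1 : ∀ u ∈ W, z (u + 1) = 1 := fun u k => by simp [hz, k]
  have z2 : ∀ u, d.st.get u ≠ 2 → z (u + 1) = 0 := fun u k => by simp [hz, w.ne k]
  have cw : ∀ v ∈ W, d.cls.get v ∈ W := fun v hv => (w.cl v (w.lt v hv) (w.st v hv)).1 hv
  have t := n.tots (fun A x => x * (z A.b - z A.a)) r w c a
  rw [show tot (fun A x => x * (z A.b - z A.a)) N' = 0 from (n.arcs r w g c a).circ z,
    show tot (fun A x => x * (z A.b - z A.a)) N = 0 from a.circ z,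
    sum_eq_zero (s := fnH G d) fun h hh => by
      simp [aG, z0, z2 h (has3.1 (mem_fnH.1 hh)).2],
    sum_congr rfl fun o ho => (?_ : _ = -N.X (5 * o)), sum_neg_distrib] at t
  · rw [zero_sub, neg_neg, add_zero, eq_comm, add_eq_zero_iff_eq_neg, ← sum_neg_distrib] at t
    rw [t]
    refine (sum_le_sum (g := fun v => if d.mt.get v = v then b else 0) fun v hv => ?_).trans_eq ?_
    swap
    · rw [← sum_filter, sum_const, nsmul_eq_mul]; rfl
    · rw [(w.old12 a hv _).1, (w.old12 a hv _).2]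
      simp only [aG, aU, capA, snkA, z0, z1 v hv, z1 _ (cw v hv)]
      split_ifs with p q q
      · have := hb _ (a.entry (w.lt v hv) (.inr p)).1; have := hb _ (a.sink q).1; omega
      · have := hb _ (a.entry (w.lt v hv) (.inr p)).1; omega
      · have := hb _ (a.sink q).1; omega
      · omega
  · obtain ⟨p, q⟩ := mem_fnP.1 ho
    obtain ⟨p1, p2⟩ := has0.1 p
    simp [aP, capA, z1 _ (cw _ q), z2 _ (c.pr o p1 p2).2.1]

end Crest.Agent.N325.P2
end

-- ▼ part N325/Ag/FinE
section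

/-!
# Row 325, AUGMENT (helper94): the last step — the program and its effect on the network
-/

set_option autoImplicit false
open Finset

namespace Crest.Agent.N325.P2

open Crest.Agent.N325.Tw Crest.Agent.N325.Ip Crest.Agent.N325.Mt Crest.Agent.N325.Bf
  Crest.Agent.N325.Op

/-- **FINAL** -/
def finE {T : Type} (E : Env T) (s : S T) (o : ℕ) : R (S T) :=
  finDt E.G E.C.fu s.2 o >>= fun r => drL E.G s.2 r.2.1 >>= fun L => rd E s.1 s.2 L >>= fun u =>
    accL u.2 (fun p => 5 * E.G.hd p + 3) r.2.2 u.2 >>= fun x1 =>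
    foldP (frs E.C.lam E.C.lam) r.2.1 x1 >>= fun x => app E (u.1, s.2) r.1 L x

namespace Cx
variable {T : Type} {X : Cx T}

theorem sp_finE (h : X.Ok) {s : Ip.St T} {d : Dt} {N : Net} {o : ℕ} (i : X.Inv (s, d) N)
    (ro : X.RoomN (s, d) (40 * (X.G.n + 1))) (ho : o < X.G.nd) (s1 : d.st.get (X.G.tl.get o) = 2)
    (s2 : d.st.get (X.G.hd o) = 2) (ne : d.cls.get (X.G.tl.get o) ≠ d.cls.get (X.G.hd o))
    (r1 : (bgOf X.G d).mu (d.cls.get (X.G.tl.get o)) = none)
    (r2 : (bgOf X.G d).mu (d.cls.get (X.G.hd o)) = none) :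
    Sp X.g (finE X.toEnv (s, d) o) fun r t => ∃ N' W O, X.Inv r N' ∧
      FinO X.G d (d.cw.get (d.cls.get (X.G.tl.get o)) + d.cw.get (d.cls.get (X.G.hd o))) r.2 W O ∧
      FinN X.P.D X.C X.G d W.toFinset r.2 N N' X.C.lam ∧
      t + X.Pt r.1 ≤ X.Pt s + X.κ * (X.C.Z * (W.length + 1)) := by
  have w := h.wf; have c : Cmb X.G d := i.cmb; have a : Arcs X.P.D X.C X.G d N := i.arcs
  have m1 := h.n_le_M; have m2 := h.M_le_X; have m3 := h.K; have m4 := h.M; have m5 := h.fu
  have m6 := h.lam_le'; have m7 := h.BD_le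
  have m8 : (2 * X.C.K + 45) * X.G.n + 11 ≤ X.C.fu :=
    le_trans (by nlinarith) ((Nat.mul_le_mul_right _
      (show 2 * X.C.K + 45 ≤ 1000 * (X.C.K + 5) ^ 2 by nlinarith)).trans m5)
  refine (sp_finDt (K := X.C.K) w c ho s1 s2 ne r1 r2 (by omega) (by omega) m8).bind ?_
  rintro ⟨d', W, O⟩ t0 ⟨F, u0⟩
  dsimp only at F u0 ⊢
  have r := F.rel; have rw' := F.root
  have lt : ∀ v ∈ W, v < X.G.n := fun v k => rw'.lt v (List.mem_toFinset.2 k)
  have lW : W.length ≤ X.G.n := by
    rw [← List.toFinset_card_of_nodup F.nd]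
    exact (card_le_card fun v k => mem_range.2 (rw'.lt v k)).trans (card_range _).le
  refine (sp_drL w c lt (by omega)).bind ?_
  rintro L t1 ⟨hL, u1⟩
  have mL := fun e => hL ▸ mem_drI (d := d) (e := e) w lt
  have lL : (L.length : ℝ) ≤ 16 * W.length := by exact_mod_cast hL ▸ length_drI w d W
  have lW' : (W.length : ℝ) ≤ X.G.n := by exact_mod_cast lW
  have au : (100 : ℝ) ≤ X.k.AU := by exact_mod_cast h.AU
  have q1 := mul_le_mul_of_nonneg_left (lL.trans (mul_le_mul_of_nonneg_left lW' (by norm_num)))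
    (show (0 : ℝ) ≤ X.k.AU by linarith)
  have q2 := mul_le_mul_of_nonneg_right au (Nat.cast_nonneg (α := ℝ) X.G.n)
  have n0 := Nat.cast_nonneg (α := ℝ) X.G.n
  unfold RoomN at ro
  push_cast at ro
  refine (sp_rd h i.il a.mem (by have := phi_le_Pt (X := X) (s := s); nlinarith)).bind ?_
  rintro ⟨s', x0⟩ t2 ⟨il, k2, u2, -⟩
  dsimp only at il k2 u2 ⊢
  have hb := fun e he => i.lt_B h (e := e) he
  have b0 : ∀ e, (x0.get e).natAbs ≤ X.C.B := fun e => by
    rw [k2]; split_ifs with q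
    · have := hb e q.2; omega
    · simp
  have lO := F.lO
  have ob : X.C.B + O.length * X.C.B + X.C.lam ≤ X.C.M := by
    have := Nat.mul_le_mul_right X.C.B (show O.length ≤ 3 * X.G.n by omega); nlinarith
  refine (sp_accL _ F.ndO b0 b0 (by omega)).bind fun x1 t3 ⟨k3, b3, u3⟩ =>
    (sp_foldP _ _ _).bind fun x t4 ⟨k4, u4⟩ => ?_
  have k4 : ∀ e, x.get e = if e % 5 ≠ 0 ∧ e / 5 ∈ W then (X.C.lam : ℤ) else x1.get e := fun e => by
    rw [k4, foldl_frs, ite_self]
  have xa : ∀ v, ∑ p ∈ O.toFinset with 5 * X.G.hd p + 3 = 5 * v + 3, x0.get (5 * p) =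
      fnF X.G d W.toFinset N v := fun v => by
    refine (sum_subset_zero_on_sdiff (fun p k => ?_) (fun p k => ?_) fun p k => ?_).symm
    · obtain ⟨k1, k2⟩ := mem_filter.1 k
      obtain ⟨k0, k1⟩ := mem_fnP.1 k1
      exact mem_filter.2 ⟨List.mem_toFinset.2 ((F.mO p).2 ⟨(has0.1 k0).1, List.mem_toFinset.1 k1⟩),
        by rw [k2]⟩
    · simp only [mem_sdiff, mem_filter, List.mem_toFinset, F.mO, mem_fnP] at k
      rw [k2, if_neg fun z => k.2 ⟨⟨(a.mem _).1 z.2, k.1.1.2⟩, by omega⟩]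
    · obtain ⟨k0, k1⟩ := mem_fnP.1 (mem_filter.1 k).1
      rw [k2, if_pos ⟨(mL _).2 (.inr ⟨p, (has0.1 k0).1, List.mem_toFinset.1 k1, .inl rfl⟩),
        (a.mem _).2 k0⟩]
  have y1 : ∀ e ∈ L, has X.G d' e → e % 5 ≠ 3 → e ∈ N.E → x.get e = N.X e := fun e hl p q z => by
    rw [k4, if_neg, k3, k2, if_pos ⟨hl, z⟩, sum_eq_zero fun p k => by
      have := (mem_filter.1 k).2; omega, add_zero]
    rintro ⟨j1, j2⟩
    rw [← List.mem_toFinset] at j2
    obtain ⟨v, rfl | rfl | rfl | rfl | rfl⟩ := id_cases e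
    · omega
    · exact ((r.h1 rw').1 p).2 (by rwa [show (5 * v + 1) / 5 = v by omega] at j2)
    · exact (r.h2.1 p).2 (by rwa [show (5 * v + 2) / 5 = v by omega] at j2)
    · omega
    · have := rw'.st _ j2
      rw [show (5 * v + 4) / 5 = v by omega, (has4.1 ((a.mem _).1 z)).2] at this; omega
  have y2 : ∀ v ∈ W.toFinset, ∀ j, j = 3 ∨ j = 4 → 5 * v + j ∈ L ∧ x.get (5 * v + j) = X.C.lam :=
    fun v k j q => by
      have : (5 * v + j) % 5 ≠ 0 ∧ (5 * v + j) / 5 ∈ W :=
        ⟨by omega, by rw [show (5 * v + j) / 5 = v by omega]; exact List.mem_toFinset.1 k⟩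
      exact ⟨(mL _).2 (.inl this), by rw [k4, if_pos this]⟩
  have y3 : ∀ v ∈ fnH X.G d, x.get (5 * v + 3) = x1.get (5 * v + 3) := fun v k => by
    rw [k4, if_neg fun z => rw'.ne (has3.1 (mem_fnH.1 k)).2 (by
      rw [show (5 * v + 3) / 5 = v by omega] at z; exact List.mem_toFinset.2 z.2)]
  have y4 : ∀ v ∈ fnH X.G d, 5 * v + 3 ∈ L →
      x1.get (5 * v + 3) = N.X (5 * v + 3) + fnF X.G d W.toFinset N v := fun v k q => by
    rw [k3, xa, k2, if_pos ⟨q, (a.mem _).2 (mem_fnH.1 k)⟩]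
  refine (sp_app0 (d2 := d') (x := x) (L := L) h il a (r.cmb rw' c)
    (by have := phi_le_Pt (X := X) (s := s'); have := Nat.cast_nonneg (α := ℝ) t2; nlinarith)
    (fun e he => ?_) fun e he p => ?_).mono ?_
  · have : has X.G d' e ↔ has X.G d e := by
      have z : ∀ v j, 0 < j → j < 5 → e = 5 * v + j → v ∉ W.toFinset := fun v j j1 j2 q k =>
        he ((mL _).2 (.inl ⟨by omega, by
          rw [show e / 5 = v by omega]; exact List.mem_toFinset.1 k⟩))
      obtain ⟨v, q | q | q | q | q⟩ := id_cases e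
      · rw [q, r.h0]
        exact and_iff_left_of_imp fun k j =>
          he ((mL _).2 (.inr ⟨v, (has0.1 k).1, List.mem_toFinset.1 j, .inl q⟩))
      · rw [q, r.h1 rw', and_iff_left (z v 1 (by omega) (by omega) q)]
      · rw [q, r.h2, and_iff_left (z v 2 (by omega) (by omega) q)]
      · rw [q, r.h3 rw', or_iff_left (z v 3 (by omega) (by omega) q)]
      · rw [q, r.h4 rw', or_iff_left (z v 4 (by omega) (by omega) q)]
    exact ⟨this, fun k => r.arc rw' c (this.2 k)⟩
  · have old : e % 5 ≠ 3 → has X.G d e → Dom X.Bd (arcOf X.P.D X.C X.G d' e) (x.get e) :=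
      fun q k => by
        rw [y1 e he p q (a.of_has k).1, r.arc rw' c p, ← (a.of_has k).2]
        exact (h.ip.view i.il.1 e (a.of_has k).1).2.2.1
    obtain ⟨v, rfl | rfl | rfl | rfl | rfl⟩ := id_cases e
    · exact old (by omega) (r.h0.1 p).1
    · exact old (by omega) ((r.h1 rw').1 p).1
    · exact old (by omega) (r.h2.1 p).1
    · rw [arcOf3]
      refine ((r.h3 rw').1 p).elim (fun k => ?_) fun k => ?_
      · have v0 := (h.ip.view i.il.1 _ (a.of_has k).1).2.2.1.1
        have f0 : 0 ≤ fnF X.G d W.toFinset N v := sum_nonneg fun p k =>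
          (hb _ ((a.mem _).2 (mem_fnP.1 (mem_filter.1 k).1).1)).1.le
        have := y4 v (mem_fnH.2 k) he; have := b3 (5 * v + 3); have := h.sm
        rw [(a.of_has k).2, arcOf3] at v0
        rw [y3 v (mem_fnH.2 k)]
        simp only [Dom, aG] at v0 ⊢; omega
      · rw [(y2 v k 3 (.inl rfl)).2]
        exact h.dom (h.big rfl le_rfl (by simp only [aG]; omega))
    · refine ((r.h4 rw').1 p).elim (old (by omega)) fun k => ?_
      rw [arcOf4, (y2 v k 4 (.inr rfl)).2]
      exact h.dom (h.big rfl le_rfl (by simp only [aU]; omega))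
  · rintro ⟨s'', d''⟩ t5 ⟨rfl, N', il', e1, e2, -, u5, -⟩
    have n : FinN X.P.D X.C X.G d W.toFinset d'' N N' X.C.lam := by
      refine ⟨e1, fun e k => (e2 e k).1, fun e k p q => ?_, fun v k => ⟨?_, ?_⟩, fun v k => ?_⟩
      · rw [(e2 e k).2]; split_ifs with z
        exacts [y1 e z ((e1 e).1 k) p q, rfl]
      · rw [(e2 _ ((e1 _).2 ((r.h3 rw').2 (.inr k)))).2, if_pos (y2 v k 3 (.inl rfl)).1,
          (y2 v k 3 (.inl rfl)).2]
      · rw [(e2 _ ((e1 _).2 ((r.h4 rw').2 (.inr k)))).2, if_pos (y2 v k 4 (.inr rfl)).1,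
          (y2 v k 4 (.inr rfl)).2]
      · rw [(e2 _ ((e1 _).2 ((r.h3 rw').2 (.inl (mem_fnH.1 k))))).2]
        split_ifs with z
        · rw [y3 v k, y4 v k z]
        · rw [fnF, sum_eq_zero fun p j => absurd ((mL _).2 (.inr ?_)) z, add_zero]
          obtain ⟨j1, j2⟩ := mem_filter.1 j
          obtain ⟨j0, j1⟩ := mem_fnP.1 j1
          exact ⟨p, (has0.1 j0).1, List.mem_toFinset.1 j1, .inr (.inr (.inl (by rw [j2])))⟩
    refine ⟨N', W, O, ⟨il', n.arcs r rw' w c a, r.cmb rw' c, r.qOk i.q⟩, F, n, ?_⟩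
    have z : t0 + t1 + t3 + t4 + (64 * X.k.AU + 120) * (W.length + 1) ≤
        X.κ * (X.C.Z * (W.length + 1)) := by
      have := h.κ_le; have := h.Z.1
      have : 6 * X.C.K + 400 + 64 * X.k.AU ≤ X.κ * X.C.Z := by nlinarith
      have := Nat.mul_le_mul_right (W.length + 1) this
      nlinarith
    have z' : (t0 + t1 + t3 + t4 + (64 * X.k.AU + 120) * (W.length + 1) : ℝ) ≤
        X.κ * (X.C.Z * (W.length + 1)) := by exact_mod_cast z
    have q3 := mul_le_mul_of_nonneg_left lL (show (0 : ℝ) ≤ X.k.AU by linarith)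
    have := Nat.cast_nonneg (α := ℝ) W.length
    dsimp only at u5 ⊢
    push_cast
    nlinarith

end Cx

end Crest.Agent.N325.P2
end

-- ▼ part N325/Ag/FinP
section

/-!
# Row 325, AUGMENT (helper53): the last step — the potential
-/

set_option autoImplicit false
open Finset

namespace Crest.Agent.N325.P2

open Crest.Agent.N325.Tw Crest.Agent.N325.Ip Crest.Agent.N325.Mt Crest.Agent.N325.Bf
  Crest.Agent.N325.Op Crest.Agent.N325.Ipm

/-- more flow on an arc whose upper slack stays above one -/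
theorem bar_raise_price {P : Pm} {B : Bn} {e : ℕ} {A : Arc} {x c : ℤ} (hD : 1 ≤ P.D)
    (hs0 : 1 ≤ P.s0) (hs : P.s0 ≤ P.D) (hA : B.arc e A) (h1 : 0 < x + A.o1) (hc : 0 ≤ c)
    (h3 : (P.D : ℤ) ≤ A.o3 - (x + c)) :
    bar P B A (x + c) ≤ bar P B A x + (A.p + A.c3) * (c / P.D) := by
  have d : (0 : ℝ) < P.D := by exact_mod_cast hD
  have t := bar_tangent (x := x + c) (c := -c) hD hs0 hA (by omega) (by omega) (by omega) (by omega)
  obtain ⟨a1, a2, -⟩ := slacks (x := x + c) hD hA (by omega) (by omega)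
  have w1 := mul_nonneg (Nat.cast_nonneg (α := ℝ) A.c1) (wt_pos (s0 := σ0 P) a1.1).le
  have w2 := mul_nonneg (Nat.cast_nonneg (α := ℝ) A.c2) (wt_pos (s0 := σ0 P) a2.1).le
  have h3' : (P.D : ℝ) ≤ (A.o3 : ℝ) - ((x + c : ℤ) : ℝ) := by exact_mod_cast h3
  have s0 : (P.s0 : ℝ) ≤ P.D := by exact_mod_cast hs
  have w3 : wt (σ0 P) (s3 P A (x + c)) ≤ 1 :=
    (wt_eq hD (s0.trans h3')).trans_le ((div_le_one (d.trans_le h3')).2 h3')
  have c0 : (0 : ℝ) ≤ c / P.D := div_nonneg (by exact_mod_cast hc) d.le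
  have w3' := mul_le_mul_of_nonneg_right
    (mul_le_mul_of_nonneg_left w3 (Nat.cast_nonneg (α := ℝ) A.c3)) c0
  have := mul_nonneg w1 c0; have := mul_nonneg w2 c0
  rw [add_neg_cancel_right, gr, Int.cast_neg, neg_div] at t
  linarith

namespace Cx
variable {T : Type} {X : Cx T} {s : St T} {N N' : Net} {d d' : Dt} {W : Finset ℕ} {v : ℕ}

theorem Ok.lM_fin (h : X.Ok) : lM X.P X.Bd = X.Lg - Real.log X.P.D := by
  have D0 : (0 : ℝ) < X.P.D := by exact_mod_cast h.D_pos
  have M0 : (0 : ℝ) < X.Bd.Mu := by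
    have := h.n_le_M; rw [← h.Mu]; exact_mod_cast (by omega : 0 < X.C.M)
  exact Real.log_div M0.ne' D0.ne'

/-- the two new arcs of an unlabelled vertex -/
theorem Ok.fin_GU (h : X.Ok) (c : Cmb X.G d) (hv : v < X.G.n) (k : d.st.get v = 0) :
    bar X.P X.Bd (aG X.C v) X.C.lam + bar X.P X.Bd (aU X.P.D X.C v) X.C.lam ≤
      1 + 4 * X.Lg + 2 * X.C.Z * lM X.P X.Bd := by
  have A3 := h.arc c (has3.2 ⟨hv, by omega⟩)
  have A4 := h.arc c (has4.2 ⟨hv, k⟩)
  rw [arcOf3] at A3; rw [arcOf4] at A4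
  have := h.BD_le; have := h.lam_le'; have l0 := h.lam_pos
  have g3 : Big X.P (aG X.C v) X.C.lam := h.big rfl le_rfl (by simp only [aG]; omega)
  have g4 : Big X.P (aU X.P.D X.C v) X.C.lam := h.big rfl le_rfl (by simp only [aU]; omega)
  have b3 := Lb.bar_le_all h.D_pos h.s0_pos A3 g3
  have D0 : (0 : ℝ) < X.P.D := by exact_mod_cast h.D_pos
  have l1 : (1 : ℝ) ≤ X.C.lam := by exact_mod_cast l0
  have l2 : (20000 * (X.C.Ph * X.C.Z * X.C.lam) : ℝ) ≤ X.P.D := by exact_mod_cast h.lam_le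
  have l3 : (1 : ℝ) ≤ 2 * X.P.D - X.C.lam := by
    have : X.C.lam + 1 ≤ 2 * X.P.D := by omega
    have : (X.C.lam + 1 : ℝ) ≤ 2 * X.P.D := by exact_mod_cast this
    linarith
  have p : (5 * X.C.Ph * X.C.Z : ℝ) * (X.C.lam / X.P.D) ≤ 1 := by
    rw [← mul_div_assoc, div_le_one D0]
    have : (0 : ℝ) ≤ X.C.Ph * X.C.Z * X.C.lam := by positivity
    linarith
  have q1 := Real.log_nonneg l1
  have q2 := Real.log_nonneg l3
  have q3 := mul_le_mul_of_nonneg_left (Real.log_le_log D0 (by linarith : (X.P.D : ℝ) ≤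
    X.C.lam + X.P.D)) (by positivity : (0 : ℝ) ≤ 2 * X.C.Z)
  rw [g4.bar_eq h.D_pos h.s0_pos A4, barL, h.lM_fin]
  simp only [aG, aU, Lg] at b3 ⊢
  push_cast at b3 ⊢
  rw [add_zero] at b3 ⊢
  linarith

/-- a sink pays its normalisation up to `Z B / D` -/
theorem Inv.fin_sink (i : X.Inv (s, d) N) (h : X.Ok) (k : isC X.G d v) :
    (X.C.Z * (d.cw.get v + 1) : ℝ) * (lM X.P X.Bd - Real.log (d.cw.get v + 1)) ≤
      bar X.P X.Bd (snkA X.C v (d.cw.get v + 1)) (N.X (5 * v + 2)) + X.C.Z * (X.C.B / X.P.D) := by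
  obtain ⟨m, a⟩ := i.arcs.sink k
  have p := Inv.pos h i.il.1 m
  have b := (Lb.le_bar h.D_pos h.s0_pos (h.ip.view i.il.1 _ m).2.1 p.1 p.2).1
  obtain ⟨x0, x1⟩ := i.lt_B h m
  rw [a] at b
  have D0 : (0 : ℝ) < X.P.D := by exact_mod_cast h.D_pos
  have x0' : (0 : ℝ) < N.X (5 * v + 2) := by exact_mod_cast x0
  have x1' : (N.X (5 * v + 2) : ℝ) ≤ X.C.B := by exact_mod_cast x1.le
  have w0 : (0 : ℝ) < d.cw.get v + 1 := by positivity
  have l := log_sub_le (a := N.X (5 * v + 2)) (b := X.P.D * (d.cw.get v + 1))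
    (t := X.C.B / (X.P.D * (d.cw.get v + 1))) x0' (by positivity) (by
      rw [add_mul, div_mul_cancel₀ _ (by positivity)]
      have : (0 : ℝ) ≤ X.P.D * (d.cw.get v + 1) := by positivity
      linarith)
  rw [Real.log_mul D0.ne' w0.ne'] at l
  have l' := mul_le_mul_of_nonneg_left l (by positivity : (0 : ℝ) ≤ X.C.Z * (d.cw.get v + 1))
  have e : (X.C.Z * (d.cw.get v + 1) : ℝ) * (X.C.B / (X.P.D * (d.cw.get v + 1))) =
      X.C.Z * (X.C.B / X.P.D) := by field_simp
  rw [e] at l'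
  rw [h.lM_fin]
  simp only [snkA, Lg] at b ⊢
  push_cast at b ⊢
  rw [add_zero] at b
  linarith

/-- **the potential after the last step of AUGMENT** -/
theorem fin_pot (h : X.Ok) (i : X.Inv (s, d) N) (r : FinR X.G d W d') (w : RootW X.G d W)
    (n : FinN X.P.D X.C X.G d W d' N N' X.C.lam) (hR : ex W d.mt.get = 2)
    (hC : #(W.filter (isC X.G d)) ≤ 2) (hq : d'.Q.length ≤ d.Q.length + 3 * #W)
    (hx : ex (range X.G.n) d'.mt.get + 2 = ex (range X.G.n) d.mt.get) :
    pot X.P X.Bd N' + X.Ψ d' + 2 * X.Au ≤ pot X.P X.Bd N + X.Ψ d +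
      X.C.Z * (13 * X.C.Ph * X.C.B / X.P.D + 12 * #W) := by
  have t := n.tots (bar X.P X.Bd) r w i.cmb i.arcs
  have c' := r.cmb w i.cmb
  have D0 : (0 : ℝ) < X.P.D := by exact_mod_cast h.D_pos
  have lt := fun e he => i.lt_B h (e := e) he
  have ex := n.exit r w h.wf i.cmb i.arcs lt
  rw [hR] at ex
  have f0 : ∀ u, 0 ≤ fnF X.G d W N u := fun u => sum_nonneg fun o ho =>
    (lt _ (i.arcs.of_has (mem_fnP.1 (mem_filter.1 ho).1).1).1).1.le
  have fs : ∑ u ∈ fnH X.G d, fnF X.G d W N u ≤ 2 * X.C.B := by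
    have := sum_fnF (N := N) (W := W) h.wf i.cmb (K := ℤ) fun _ => 1
    simp only [Int.cast_id, mul_one] at this
    rw [this]; exact_mod_cast ex
  have k1 : 0 ≤ ∑ o ∈ fnP X.G d W, bar X.P X.Bd (aP X.C X.G d o) (N.X (5 * o)) :=
    sum_nonneg fun o ho => by
      obtain ⟨m, a⟩ := i.arcs.of_has (mem_fnP.1 ho).1
      have := Inv.bar_nonneg h i.il.1 m
      rwa [a, arcOf0] at this
  have k2 : ∑ u ∈ fnH X.G d, (bar X.P X.Bd (aG X.C u) (N.X (5 * u + 3) + fnF X.G d W N u) -
      bar X.P X.Bd (aG X.C u) (N.X (5 * u + 3))) ≤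
      (5 * X.C.Ph * X.C.Z + 1) * (2 * X.C.B / X.P.D) := by
    refine (sum_le_sum (g := fun u => (5 * X.C.Ph * X.C.Z + 1 : ℝ) *
      ((fnF X.G d W N u : ℝ) / X.P.D)) fun u hu => ?_).trans ?_
    · obtain ⟨m, a⟩ := i.arcs.of_has (mem_fnH.1 hu)
      have A := (h.ip.view i.il.1 _ m).2.1
      rw [a, arcOf3] at A
      have := single_le_sum (f := fnF X.G d W N) (fun u _ => f0 u) hu
      have := lt _ m; have := h.BD_le; have := h.lam_le'; have := h.sm
      have b := bar_raise_price (x := N.X (5 * u + 3)) h.D_pos h.s0_pos (by omega) A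
        (by simp only [aG]; omega) (f0 u) (by simp only [aG]; omega)
      simp only [aG] at b ⊢
      push_cast at b
      linarith
    · rw [← mul_sum, ← sum_div, ← Int.cast_sum]
      have : ((∑ u ∈ fnH X.G d, fnF X.G d W N u : ℤ) : ℝ) ≤ 2 * X.C.B := by exact_mod_cast fs
      gcongr
  have k3 : ∑ v ∈ W, (bar X.P X.Bd (aG X.C v) X.C.lam + bar X.P X.Bd (aU X.P.D X.C v) X.C.lam -
      old (bar X.P X.Bd) N (5 * v + 1) - old (bar X.P X.Bd) N (5 * v + 2)) +
      ∑ v ∈ W, (X.ψv d' v - X.ψv d v) ≤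
      #W * (1 + 4 * X.Lg + 8 * X.C.Z) + 2 * (X.C.Z * (X.C.B / X.P.D)) := by
    rw [← sum_add_distrib]
    refine (sum_le_sum (g := fun v => (1 + 4 * X.Lg + 8 * X.C.Z : ℝ) +
      if isC X.G d v then (X.C.Z * (X.C.B / X.P.D) : ℝ) else 0) fun v hv => ?_).trans ?_
    · have a := h.fin_GU c' (w.lt v hv) (r.st_on hv)
      have b : 0 ≤ old (bar X.P X.Bd) N (5 * v + 1) := by
        unfold old; split_ifs with q
        · exact Inv.bar_nonneg h i.il.1 q
        · exact le_rfl
      have s0 := r.st_on hv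
      have s2 := w.st v hv
      have e : (0 : ℝ) ≤ ((X.C.K - Nat.log 2 (d.cw.get (d.cls.get v)) : ℕ) : ℝ) := by positivity
      rw [(w.old12 i.arcs hv _).2, ψv, ψv, if_neg fun q => (r.isC_iff.1 q).2 hv, s0, s2]
      norm_num
      split_ifs with q
      · linarith [i.fin_sink h q]
      · linarith
    · rw [sum_add_distrib, sum_const, nsmul_eq_mul, ← sum_filter, sum_const, nsmul_eq_mul]
      have : (#(W.filter (isC X.G d)) : ℝ) ≤ 2 := by exact_mod_cast hC
      gcongr
  have k4 : ∑ v ∈ range X.G.n, X.ψv d' v =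
      ∑ v ∈ range X.G.n, X.ψv d v + ∑ v ∈ W, (X.ψv d' v - X.ψv d v) := by
    rw [sum_subset (s₁ := W) (s₂ := range X.G.n) (fun v hv => mem_range.2 (w.lt v hv))
      fun v _ k => ?_, ← sum_add_distrib]
    · exact sum_congr rfl fun v _ => by ring
    · simp only [ψv, r.isC_iff, k, not_false_eq_true, and_true, r.st_off k, r.cls_off k, r.cw,
        sub_self]
  have q : (X.C.Z : ℝ) * d'.Q.length ≤ X.C.Z * (d.Q.length + 3 * #W) :=
    mul_le_mul_of_nonneg_left (by exact_mod_cast hq) (Nat.cast_nonneg _)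
  have x : (Mt.ex (range X.G.n) d.mt.get : ℝ) = Mt.ex (range X.G.n) d'.mt.get + 2 := by
    exact_mod_cast hx.symm
  have z := mul_le_mul_of_nonneg_left h.Lg_le (Nat.cast_nonneg (α := ℝ) #W)
  have z0 := mul_nonneg (Nat.cast_nonneg (α := ℝ) #W) h.Lg_nonneg
  have w0 : (0 : ℝ) ≤ #W := by positivity
  have b0 : (0 : ℝ) ≤ X.C.B / X.P.D := by positivity
  have Z1 : (1 : ℝ) ≤ X.C.Z := by have := h.Z_pos; exact_mod_cast (by omega : 1 ≤ X.C.Z)
  have P1 : (2 : ℝ) ≤ X.C.Ph := by have := h.Ph; exact_mod_cast (by omega : 2 ≤ X.C.Ph)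
  have y1 := mul_le_mul_of_nonneg_right Z1 b0
  have y2 := mul_le_mul_of_nonneg_right P1 (mul_nonneg (by linarith : (0 : ℝ) ≤ X.C.Z) b0)
  rw [Psi_eq, Psi_eq, k4, x, pot_eq, pot_eq, t, mul_div_assoc]
  rw [mul_div_assoc] at k2
  linarith

end Cx

end Crest.Agent.N325.P2
end

-- ▼ part N325/Ag/Fin
section

/-!
# Row 325, AUGMENT (helper94): the last step
-/

set_option autoImplicit false
open Finset

namespace Crest.Agent.N325.P2.Cx

open Crest.Agent.N325.Ip

/-- **FINAL** -/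
theorem finSpec {T : Type} {X : Cx T} (h : X.Ok) : X.FinSpec (finE X.toEnv) := by
  rintro ⟨s, d⟩ N o i ro ho s1 s2 ne r1 r2
  refine (sp_finE h i ro ho s1 s2 ne r1 r2).mono ?_
  rintro ⟨s', d'⟩ t ⟨N', W, O, i', F, n, u⟩
  refine ⟨N', i', ?_⟩
  have p := fin_pot h i F.rel F.root n F.ex2 F.cl2 F.q F.ex
  have l := F.len
  rw [List.toFinset_card_of_nodup F.nd] at p
  have p' := mul_le_mul_of_nonneg_left p (Nat.cast_nonneg (α := ℝ) X.κ)
  have l' : (W.length : ℝ) = d.cw.get (d.cls.get (X.G.tl.get o)) + d.cw.get (d.cls.get (X.G.hd o)) := by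
    exact_mod_cast l
  have z : (0 : ℝ) ≤ X.κ * (X.C.Z * (W.length + 1)) := by positivity
  have z' : (0 : ℝ) ≤ X.κ * X.C.Z := by positivity
  simp only [Tot, wtC] at u p' ⊢
  push_cast
  rw [show (d.cw.get (d.cls.get (X.G.tl.get o)) : ℝ) + 1 + (d.cw.get (d.cls.get (X.G.hd o)) + 1) =
    W.length + 2 by linarith]
  linarith

end Crest.Agent.N325.P2.Cx
end

-- ▼ part N325/Ag/FinI

/-!
# Row 325, AUGMENT (helper94): the last step is implementable
-/

set_option autoImplicit false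

namespace Crest.Agent.N325.P2

open Crest.Agent.N325.Tw Crest.Agent.N325.Ip Crest.Agent.N325.Mt Crest.Agent.N325.Bf
open Crest.Agent.N325.Op

variable {T : Type} [Rp T]

@[fun_prop] theorem impl_finDt : Impl fun p : Gf × ℕ × Dt × ℕ =>
    finDt p.1 p.2.1 p.2.2.1 p.2.2.2 := by
  unfold finDt; impl

@[fun_prop] theorem impl_finE : Impl fun p : Env T × S T × ℕ => finE p.1 p.2.1 p.2.2 := by
  unfold finE accL frs drL; impl

end Crest.Agent.N325.P2
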